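import Mathlib

/-!
Binary forms, as functions: sums and products, substitution of a zero, division by a linear form.
-/

namespace Vale.Agent.P256.CubicLow

open Filter Topology

/-- Binary forms of degree `k`, as functions. -/
def BF : ℕ → Submodule ℝ (ℝ × ℝ → ℝ)
  | 0 => LinearMap.range (LinearMap.pi fun _ : ℝ × ℝ => (LinearMap.id : ℝ →ₗ[ℝ] ℝ))
  | k + 1 => (BF k).map (LinearMap.mulLeft ℝ (Prod.fst : ℝ × ℝ → ℝ)) ⊔
      (BF k).map (LinearMap.mulLeft ℝ (Prod.snd : ℝ × ℝ → ℝ))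

lemma mem_BF_zero {f : ℝ × ℝ → ℝ} : f ∈ BF 0 ↔ ∃ c : ℝ, ∀ v, f v = c := by
  simp only [BF, LinearMap.mem_range]
  constructor
  · rintro ⟨c, rfl⟩; exact ⟨c, fun v => rfl⟩
  · rintro ⟨c, h⟩; exact ⟨c, funext fun v => (h v).symm⟩

lemma mem_BF_succ {k : ℕ} {f : ℝ × ℝ → ℝ} :
    f ∈ BF (k + 1) ↔ ∃ g ∈ BF k, ∃ h ∈ BF k, ∀ v, f v = v.1 * g v + v.2 * h v := by
  simp only [BF, Submodule.mem_sup, Submodule.mem_map]
  constructor
  · rintro ⟨_, ⟨g, hg, rfl⟩, _, ⟨h, hh, rfl⟩, rfl⟩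
    exact ⟨g, hg, h, hh, fun v => rfl⟩
  · rintro ⟨g, hg, h, hh, e⟩
    exact ⟨_, ⟨g, hg, rfl⟩, _, ⟨h, hh, rfl⟩, funext fun v => (e v).symm⟩

lemma BF_const (c : ℝ) : (fun _ : ℝ × ℝ => c) ∈ BF 0 := mem_BF_zero.2 ⟨c, fun _ => rfl⟩

lemma BF_fst : (Prod.fst : ℝ × ℝ → ℝ) ∈ BF 1 :=
  mem_BF_succ.2 ⟨_, BF_const 1, _, BF_const 0, fun v => by simp⟩

lemma BF_snd : (Prod.snd : ℝ × ℝ → ℝ) ∈ BF 1 :=
  mem_BF_succ.2 ⟨_, BF_const 0, _, BF_const 1, fun v => by simp⟩

lemma BF_lin (a b : ℝ) : (fun v : ℝ × ℝ => a * v.1 + b * v.2) ∈ BF 1 :=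
  mem_BF_succ.2 ⟨_, BF_const a, _, BF_const b, fun v => by ring⟩

lemma BF_mul {j k : ℕ} {f g : ℝ × ℝ → ℝ} (hf : f ∈ BF j) (hg : g ∈ BF k) :
    (fun v => f v * g v) ∈ BF (j + k) := by
  induction j generalizing f with
  | zero =>
    obtain ⟨c, hc⟩ := mem_BF_zero.1 hf
    rw [Nat.zero_add, show (fun v => f v * g v) = c • g from funext fun v => by simp [hc]]
    exact (BF k).smul_mem c hg
  | succ j ih =>
    obtain ⟨a, ha, b, hb, e⟩ := mem_BF_succ.1 hf
    rw [Nat.succ_add]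
    exact mem_BF_succ.2 ⟨_, ih ha, _, ih hb, fun v => by rw [e]; ring⟩

lemma BF_pow {j : ℕ} {f : ℝ × ℝ → ℝ} (hf : f ∈ BF j) (k : ℕ) :
    (fun v => f v ^ k) ∈ BF (k * j) := by
  induction k with
  | zero => simpa using BF_const 1
  | succ k ih =>
    rw [Nat.succ_mul]
    simpa [pow_succ] using BF_mul ih hf

lemma BF_sum {ι : Type*} {k : ℕ} (s : Finset ι) (f : ι → ℝ × ℝ → ℝ) (h : ∀ i ∈ s, f i ∈ BF k) :
    (fun v => ∑ i ∈ s, f i v) ∈ BF k := by
  rw [show (fun v => ∑ i ∈ s, f i v) = ∑ i ∈ s, f i from funext fun v => (Finset.sum_apply v s f).symm]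
  exact Submodule.sum_mem _ h

lemma BF_hom {k : ℕ} {f : ℝ × ℝ → ℝ} (hf : f ∈ BF k) (r : ℝ) (v : ℝ × ℝ) :
    f (r • v) = r ^ k * f v := by
  induction k generalizing f with
  | zero =>
    obtain ⟨c, hc⟩ := mem_BF_zero.1 hf
    simp [hc]
  | succ k ih =>
    obtain ⟨a, ha, b, hb, e⟩ := mem_BF_succ.1 hf
    rw [e, e, ih ha, ih hb, Prod.smul_fst, Prod.smul_snd, smul_eq_mul, smul_eq_mul]
    ring

lemma BF_zero_eval {k : ℕ} {f : ℝ × ℝ → ℝ} (hf : f ∈ BF (k + 1)) : f 0 = 0 := by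
  obtain ⟨a, _, b, _, e⟩ := mem_BF_succ.1 hf
  simp [e]

lemma BF_continuous {k : ℕ} {f : ℝ × ℝ → ℝ} (hf : f ∈ BF k) : Continuous f := by
  induction k generalizing f with
  | zero =>
    obtain ⟨c, hc⟩ := mem_BF_zero.1 hf
    rw [show f = fun _ => c from funext hc]
    exact continuous_const
  | succ k ih =>
    obtain ⟨a, ha, b, hb, e⟩ := mem_BF_succ.1 hf
    rw [show f = fun v => v.1 * a v + v.2 * b v from funext e]
    exact (continuous_fst.mul (ih ha)).add (continuous_snd.mul (ih hb))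

/-- The linear form vanishing at `p`. -/
def perp (p v : ℝ × ℝ) : ℝ := p.1 * v.2 - p.2 * v.1

/-- The linear form taking the value one at `p`, if `p` is a unit vector. -/
def along (p v : ℝ × ℝ) : ℝ := p.1 * v.1 + p.2 * v.2

lemma BF_perp (p : ℝ × ℝ) : perp p ∈ BF 1 := by
  rw [show perp p = fun v => -p.2 * v.1 + p.1 * v.2 from funext fun v => by rw [perp]; ring]
  exact BF_lin _ _

lemma BF_along (p : ℝ × ℝ) : along p ∈ BF 1 := BF_lin _ _

variable {p : ℝ × ℝ} (hp : p.1 ^ 2 + p.2 ^ 2 = 1)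
include hp

lemma along_self : along p p = 1 := by rw [along]; linear_combination hp

omit hp in
lemma perp_self : perp p p = 0 := by rw [perp]; ring

/-- Division with remainder by the linear form vanishing at `p`. -/
lemma BF_divide {k : ℕ} {f : ℝ × ℝ → ℝ} (hf : f ∈ BF (k + 1)) :
    ∃ g ∈ BF k, ∀ v, f v = perp p v * g v + f p * along p v ^ (k + 1) := by
  have hx : ∀ v : ℝ × ℝ, v.1 = p.1 * along p v - p.2 * perp p v := fun v => by
    rw [along, perp]; linear_combination (-v.1) * hp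
  have hy : ∀ v : ℝ × ℝ, v.2 = p.2 * along p v + p.1 * perp p v := fun v => by
    rw [along, perp]; linear_combination (-v.2) * hp
  induction k generalizing f with
  | zero =>
    obtain ⟨a, ha, b, hb, e⟩ := mem_BF_succ.1 hf
    obtain ⟨ca, hca⟩ := mem_BF_zero.1 ha
    obtain ⟨cb, hcb⟩ := mem_BF_zero.1 hb
    refine ⟨_, BF_const (-p.2 * ca + p.1 * cb), fun v => ?_⟩
    simp only [e, hca, hcb, zero_add, pow_one]
    linear_combination ca * hx v + cb * hy v
  | succ k ih =>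
    obtain ⟨a, ha, b, hb, e⟩ := mem_BF_succ.1 hf
    obtain ⟨a', ha', ea⟩ := ih ha
    obtain ⟨b', hb', eb⟩ := ih hb
    refine ⟨fun v => v.1 * a' v + v.2 * b' v +
      (-p.2 * a p + p.1 * b p) * along p v ^ (k + 1), ?_, fun v => ?_⟩
    · refine (BF (k + 1)).add_mem (mem_BF_succ.2 ⟨a', ha', b', hb', fun _ => rfl⟩) ?_
      have h := BF_pow (BF_along p) (k + 1)
      rw [mul_one] at h
      exact (BF (k + 1)).smul_mem _ h
    · simp only [e]
      rw [ea v, eb v]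
      linear_combination (a p * along p v ^ (k + 1)) * hx v + (b p * along p v ^ (k + 1)) * hy v

/-- A form with a zero at `p` is divisible by the linear form there. -/
lemma BF_dvd {k : ℕ} {f : ℝ × ℝ → ℝ} (hf : f ∈ BF (k + 1)) (h0 : f p = 0) :
    ∃ g ∈ BF k, ∀ v, f v = perp p v * g v := by
  obtain ⟨g, hg, e⟩ := BF_divide hp hf
  exact ⟨g, hg, fun v => by rw [e, h0]; ring⟩

/-- Moving off the zero line. -/
lemma perp_shift (v : ℝ × ℝ) (t : ℝ) : perp p (v + t • (-p.2, p.1)) = perp p v + t := by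
  simp only [perp, Prod.fst_add, Prod.snd_add, Prod.smul_fst, Prod.smul_snd, smul_eq_mul]
  linear_combination t * hp

/-- A nonnegative form vanishing at `p` vanishes twice. -/
lemma BF_double {k : ℕ} {f g : ℝ × ℝ → ℝ} (hg : g ∈ BF k) (e : ∀ v, f v = perp p v * g v)
    (hf : ∀ v, 0 ≤ f v) : g p = 0 := by
  have hc : Continuous fun t : ℝ => g (p + t • (-p.2, p.1)) :=
    (BF_continuous hg).comp (by fun_prop)
  have h0 := hc.tendsto 0
  simp only [zero_smul, add_zero] at h0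
  have key : ∀ t : ℝ, 0 ≤ t * g (p + t • (-p.2, p.1)) := fun t => by
    have := hf (p + t • (-p.2, p.1))
    rwa [e, perp_shift hp, perp_self, zero_add] at this
  refine le_antisymm ?_ ?_
  · exact le_of_tendsto (h0.mono_left nhdsWithin_le_nhds)
      (eventually_nhdsWithin_of_forall (s := Set.Iio (0 : ℝ)) fun t ht =>
        nonpos_of_mul_nonneg_right (key t) ht)
  · exact ge_of_tendsto (h0.mono_left nhdsWithin_le_nhds)
      (eventually_nhdsWithin_of_forall (s := Set.Ioi (0 : ℝ)) fun t ht =>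
        nonneg_of_mul_nonneg_right (key t) ht)

/-- Continuous functions nonnegative off the zero line are nonnegative. -/
lemma nonneg_of_off_line {F : ℝ × ℝ → ℝ} (hF : Continuous F)
    (h : ∀ v, perp p v ≠ 0 → 0 ≤ F v) (v : ℝ × ℝ) : 0 ≤ F v := by
  by_cases hv : perp p v = 0
  · have hc : Continuous fun t : ℝ => F (v + t • (-p.2, p.1)) := hF.comp (by fun_prop)
    have h0 := hc.tendsto 0
    simp only [zero_smul, add_zero] at h0
    refine ge_of_tendsto (h0.mono_left nhdsWithin_le_nhds)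
      (eventually_nhdsWithin_of_forall (s := Set.Ioi (0 : ℝ)) fun t ht => h _ ?_)
    rw [perp_shift hp, hv, zero_add]
    exact (Set.mem_Ioi.1 ht).ne'
  · exact h v hv

end Vale.Agent.P256.CubicLow
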