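import Vale.Agent.P256.CubicLow.BinForm

/-!
A nonnegative quadratic form whose coefficients are binary forms of degrees `d i + d j` is a sum of
squares of linear forms whose coefficients are binary forms of degrees `d j`.
-/

namespace Vale.Agent.P256.CubicLow

open Filter Topology

variable {ι : Type*} [Fintype ι]

/-- The quadratic form of a matrix of functions. -/
def qf (G : ι → ι → ℝ × ℝ → ℝ) (v : ℝ × ℝ) (w : ι → ℝ) : ℝ := ∑ i, ∑ j, G i j v * w i * w j

/-- Sums of squares of linear forms with coefficients of degrees `d`. -/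
def IsSos (d : ι → ℕ) (F : ℝ × ℝ → (ι → ℝ) → ℝ) : Prop :=
  ∃ (N : ℕ) (φ : Fin N → ι → ℝ × ℝ → ℝ), (∀ k j, φ k j ∈ BF (d j)) ∧
    ∀ v w, F v w = ∑ k, (∑ j, φ k j v * w j) ^ 2

lemma IsSos.congr {d : ι → ℕ} {F G : ℝ × ℝ → (ι → ℝ) → ℝ} (h : IsSos d F)
    (e : ∀ v w, G v w = F v w) : IsSos d G := by
  obtain ⟨N, φ, hφ, hF⟩ := h
  exact ⟨N, φ, hφ, fun v w => by rw [e, hF]⟩

lemma IsSos.zero {d : ι → ℕ} : IsSos d fun _ _ => 0 :=
  ⟨0, fun k => k.elim0, fun k => k.elim0, fun v w => by simp⟩

lemma IsSos.add {d : ι → ℕ} {F G : ℝ × ℝ → (ι → ℝ) → ℝ} (hF : IsSos d F) (hG : IsSos d G) :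
    IsSos d fun v w => F v w + G v w := by
  obtain ⟨N, φ, hφ, hF⟩ := hF
  obtain ⟨M, ψ, hψ, hG⟩ := hG
  refine ⟨N + M, Fin.append φ ψ, fun k => ?_, fun v w => ?_⟩
  · refine Fin.addCases (fun i => ?_) (fun i => ?_) k <;> simp [hφ, hψ]
  · rw [Fin.sum_univ_add]
    simp [hF, hG]

lemma IsSos.smul {d : ι → ℕ} {F : ℝ × ℝ → (ι → ℝ) → ℝ} (hF : IsSos d F) {c : ℝ} (hc : 0 ≤ c) :
    IsSos d fun v w => c * F v w := by
  obtain ⟨N, φ, hφ, hF⟩ := hF
  refine ⟨N, fun k j => Real.sqrt c • φ k j, fun k j => Submodule.smul_mem _ _ (hφ k j), fun v w => ?_⟩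
  simp only [hF, Finset.mul_sum]
  refine Finset.sum_congr rfl fun k _ => ?_
  simp only [Pi.smul_apply, smul_eq_mul, mul_assoc, ← Finset.mul_sum, mul_pow, Real.sq_sqrt hc]

lemma norm_pow_sq (k : ℕ) : ∃ (N : ℕ) (f : Fin N → ℝ × ℝ → ℝ), (∀ l, f l ∈ BF k) ∧
    ∀ v, (v.1 ^ 2 + v.2 ^ 2) ^ k = ∑ l, f l v ^ 2 := by
  induction k with
  | zero => exact ⟨1, fun _ _ => 1, fun _ => BF_const 1, fun v => by simp⟩
  | succ k ih =>
    obtain ⟨N, f, hf, e⟩ := ih
    refine ⟨N + N, Fin.append (fun l v => v.1 * f l v) (fun l v => v.2 * f l v), fun l => ?_,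
      fun v => ?_⟩
    · refine Fin.addCases (fun i => ?_) (fun i => ?_) l
      · rw [Fin.append_left, Nat.add_comm]
        exact BF_mul BF_fst (hf i)
      · rw [Fin.append_right, Nat.add_comm]
        exact BF_mul BF_snd (hf i)
    · rw [Fin.sum_univ_add, pow_succ, e]
      simp only [Fin.append_left, Fin.append_right, mul_pow, ← Finset.mul_sum]
      ring

lemma sos_diag [DecidableEq ι] (d : ι → ℕ) (S : Finset ι) :
    IsSos d fun v w => ∑ j ∈ S, (v.1 ^ 2 + v.2 ^ 2) ^ d j * w j ^ 2 := by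
  induction S using Finset.induction_on with
  | empty => exact IsSos.zero.congr fun v w => by simp
  | insert a S ha ih =>
    obtain ⟨N, f, hf, e⟩ := norm_pow_sq (d a)
    have h1 : IsSos d fun v w => (v.1 ^ 2 + v.2 ^ 2) ^ d a * w a ^ 2 := by
      refine ⟨N, fun l j => if j = a then f l else 0, fun l j => ?_, fun v w => ?_⟩
      · simp only
        split_ifs with h
        · subst h; exact hf l
        · exact Submodule.zero_mem _
      · simp only [e, Finset.sum_mul]
        refine Finset.sum_congr rfl fun l _ => ?_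
        rw [Finset.sum_eq_single a (fun j _ hj => by simp [hj]) (by simp)]
        simp [mul_pow]
    exact (h1.add ih).congr fun v w => by rw [Finset.sum_insert ha]

lemma qf_add_smul {G : ι → ι → ℝ × ℝ → ℝ} (hs : ∀ i j, G i j = G j i) (v : ℝ × ℝ) (w b : ι → ℝ)
    (t : ℝ) : qf G v (w + t • b) =
      qf G v w + 2 * t * ∑ i, (∑ j, G i j v * w j) * b i + t ^ 2 * qf G v b := by
  have e : ∑ i, ∑ j, G i j v * w i * b j = ∑ i, (∑ j, G i j v * w j) * b i := by
    rw [Finset.sum_comm]
    refine Finset.sum_congr rfl fun i _ => ?_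
    rw [Finset.sum_mul]
    exact Finset.sum_congr rfl fun j _ => by rw [hs j i]
  have e' : ∑ i, ∑ j, G i j v * b i * w j = ∑ i, (∑ j, G i j v * w j) * b i :=
    Finset.sum_congr rfl fun i _ => by
      rw [Finset.sum_mul]
      exact Finset.sum_congr rfl fun j _ => by ring
  calc qf G v (w + t • b) = ∑ i, ∑ j, (G i j v * w i * w j + t * (G i j v * w i * b j) +
        t * (G i j v * b i * w j) + t ^ 2 * (G i j v * b i * b j)) := by
        refine Finset.sum_congr rfl fun i _ => Finset.sum_congr rfl fun j _ => ?_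
        simp only [Pi.add_apply, Pi.smul_apply, smul_eq_mul]
        ring
    _ = _ := by
        simp only [Finset.sum_add_distrib, ← Finset.mul_sum]
        rw [e, e', qf, qf]
        ring

/-- A null vector of a nonnegative form is in its kernel. -/
lemma qf_kernel [DecidableEq ι] {G : ι → ι → ℝ × ℝ → ℝ} (hs : ∀ i j, G i j = G j i) {v : ℝ × ℝ}
    (hp : ∀ w, 0 ≤ qf G v w) {w : ι → ℝ} (h0 : qf G v w = 0) (i : ι) : ∑ j, G i j v * w j = 0 := by
  set r := ∑ j, G i j v * w j with hr
  set a := qf G v (Pi.single i 1) with ha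
  have h : ∀ t : ℝ, 0 ≤ 2 * t * r + t ^ 2 * a := fun t => by
    have := hp (w + t • Pi.single i 1)
    rw [qf_add_smul hs, h0, zero_add, Finset.sum_eq_single i (fun j _ hj => by simp [hj]) (by simp),
      Pi.single_eq_same, mul_one] at this
    exact this
  by_contra hne
  have hle : 0 ≤ a := hp _
  have := h (-r / (a + 1))
  have e : 2 * (-r / (a + 1)) * r + (-r / (a + 1)) ^ 2 * a = -(r ^ 2 * (a + 2)) / (a + 1) ^ 2 := by
    field_simp; ring
  rw [e, le_div_iff₀ (by positivity), zero_mul] at this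
  nlinarith [mul_pos (pow_two_pos_of_ne_zero hne) (show 0 < a + 2 by linarith)]

lemma qf_continuous {d : ι → ℕ} {G : ι → ι → ℝ × ℝ → ℝ} (hG : ∀ i j, G i j ∈ BF (d i + d j)) :
    Continuous fun q : (ℝ × ℝ) × (ι → ℝ) => qf G q.1 q.2 := by
  unfold qf
  exact continuous_finsetSum _ fun i _ => continuous_finsetSum _ fun j _ =>
    (((BF_continuous (hG i j)).comp continuous_fst).mul
      ((continuous_apply i).comp continuous_snd)).mul ((continuous_apply j).comp continuous_snd)

lemma qf_supp {G : ι → ι → ℝ × ℝ → ℝ} {S : Finset ι} (hs : ∀ i j, G i j = G j i)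
    (hS : ∀ i j, i ∉ S → G i j = 0) {v : ℝ × ℝ} {w w' : ι → ℝ} (h : ∀ j ∈ S, w j = w' j) :
    qf G v w = qf G v w' := by
  refine Finset.sum_congr rfl fun i _ => Finset.sum_congr rfl fun j _ => ?_
  by_cases hi : i ∈ S
  · by_cases hj : j ∈ S
    · rw [h i hi, h j hj]
    · rw [hs, hS j i hj]; simp
  · rw [hS i j hi]; simp

/-- Subtracting the largest multiple of the reference form produces a zero. -/
lemma exists_zero [DecidableEq ι] {d : ι → ℕ} {G : ι → ι → ℝ × ℝ → ℝ} {S : Finset ι}
    (hG : ∀ i j, G i j ∈ BF (d i + d j)) (hs : ∀ i j, G i j = G j i)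
    (hS : ∀ i j, i ∉ S → G i j = 0) (hp : ∀ v w, 0 ≤ qf G v w) (hne : S.Nonempty) :
    ∃ c : ℝ, 0 ≤ c ∧
      (∀ v w, c * (∑ j ∈ S, (v.1 ^ 2 + v.2 ^ 2) ^ d j * w j ^ 2) ≤ qf G v w) ∧
      ∃ (p : ℝ × ℝ) (w : ι → ℝ), p.1 ^ 2 + p.2 ^ 2 = 1 ∧ (∀ j ∉ S, w j = 0) ∧ w ≠ 0 ∧
        qf G p w = c * ∑ j ∈ S, (p.1 ^ 2 + p.2 ^ 2) ^ d j * w j ^ 2 := by
  obtain ⟨i₀, hi₀⟩ := hne
  set A : Set ((ℝ × ℝ) × (ι → ℝ)) := (Set.Icc ((-1 : ℝ), (-1 : ℝ)) (1, 1) ×ˢ
    Set.Icc (fun _ => (-1 : ℝ)) fun _ => 1) ∩
      ({q | q.1.1 ^ 2 + q.1.2 ^ 2 = 1} ∩ ({q | ∑ j, q.2 j ^ 2 = 1} ∩ {q | ∀ j, j ∉ S → q.2 j = 0}))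
    with hA
  have hclosed : IsClosed {q : (ℝ × ℝ) × (ι → ℝ) | ∀ j, j ∉ S → q.2 j = 0} := by
    simp only [Set.ofPred_forall]
    exact isClosed_iInter fun j => isClosed_iInter fun _ =>
      isClosed_eq (by fun_prop) continuous_const
  have hAc : IsCompact A := (isCompact_Icc.prod isCompact_Icc).inter_right
    ((isClosed_eq (by fun_prop) continuous_const).inter
      ((isClosed_eq (by fun_prop) continuous_const).inter hclosed))
  have hmem : ∀ (v : ℝ × ℝ) (w : ι → ℝ), v.1 ^ 2 + v.2 ^ 2 = 1 → ∑ j, w j ^ 2 = 1 →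
      (∀ j, j ∉ S → w j = 0) → (v, w) ∈ A := by
    intro v w hv hw hw0
    have hb : ∀ a : ℝ, a ^ 2 ≤ 1 → -1 ≤ a ∧ a ≤ 1 := fun a ha =>
      abs_le.1 ((sq_le_one_iff_abs_le_one a).1 ha)
    have hj : ∀ j, w j ^ 2 ≤ 1 := fun j => hw ▸
      Finset.single_le_sum (fun j _ => sq_nonneg (w j)) (Finset.mem_univ j)
    have h1 := hb v.1 (by linarith [sq_nonneg v.2])
    have h2 := hb v.2 (by linarith [sq_nonneg v.1])
    exact ⟨⟨⟨⟨h1.1, h2.1⟩, ⟨h1.2, h2.2⟩⟩, fun j => (hb _ (hj j)).1, fun j => (hb _ (hj j)).2⟩,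
      hv, hw, hw0⟩
  have hAne : A.Nonempty := ⟨((1, 0), Pi.single i₀ 1), hmem (1, 0) _ (by simp)
    (by rw [Finset.sum_eq_single i₀ (fun j _ hj => by simp [hj]) (by simp)]; simp)
    fun j hj => Pi.single_eq_of_ne (fun h => hj (by rw [h]; exact hi₀)) _⟩
  obtain ⟨⟨p, w⟩, ⟨-, hp1, hw1, hw0⟩, hmin⟩ :=
    hAc.exists_isMinOn hAne (qf_continuous hG).continuousOn
  have hp1' : p.1 ^ 2 + p.2 ^ 2 = 1 := hp1
  have hsum : ∑ j ∈ S, (p.1 ^ 2 + p.2 ^ 2) ^ d j * w j ^ 2 = 1 := by
    rw [hp1']
    simp only [one_pow, one_mul]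
    rw [← hw1]
    exact Finset.sum_subset (Finset.subset_univ S) fun j _ hj => by simp [show w j = 0 from hw0 j hj]
  refine ⟨qf G p w, hp p w, fun v u => ?_, p, w, hp1', hw0, fun h => ?_, by rw [hsum, mul_one]⟩
  · obtain ⟨r, hr, v', hv', hvr⟩ : ∃ r : ℝ, r ^ 2 = v.1 ^ 2 + v.2 ^ 2 ∧ ∃ v' : ℝ × ℝ,
        v'.1 ^ 2 + v'.2 ^ 2 = 1 ∧ v = r • v' := by
      by_cases h : v.1 ^ 2 + v.2 ^ 2 = 0
      · refine ⟨0, by simp [h], (1, 0), by simp, ?_⟩
        have h1 : v.1 = 0 := by nlinarith [sq_nonneg v.2]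
        have h2 : v.2 = 0 := by nlinarith [sq_nonneg v.1]
        rw [zero_smul]; exact Prod.ext h1 h2
      · set r := Real.sqrt (v.1 ^ 2 + v.2 ^ 2) with hr
        have hr2 : r ^ 2 = v.1 ^ 2 + v.2 ^ 2 := Real.sq_sqrt (by positivity)
        have hr0 : r ≠ 0 := fun h0 => h (by rw [← hr2, h0]; simp)
        refine ⟨r, hr2, r⁻¹ • v, ?_, by rw [smul_smul, mul_inv_cancel₀ hr0, one_smul]⟩
        simp only [Prod.smul_fst, Prod.smul_snd, smul_eq_mul]
        field_simp
        linarith
    set u' : ι → ℝ := fun j => if j ∈ S then r ^ d j * u j else 0 with hu'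
    have e1 : qf G v u = qf G v' u' := by
      rw [qf_supp hs hS (w' := fun j => if j ∈ S then u j else 0) fun j hj => by simp [hj]]
      refine Finset.sum_congr rfl fun i _ => Finset.sum_congr rfl fun j _ => ?_
      rw [hvr, BF_hom (hG i j), pow_add]
      by_cases hi : i ∈ S <;> by_cases hj : j ∈ S <;> simp [hu', hi, hj]
      ring
    have e2 : ∑ j ∈ S, (v.1 ^ 2 + v.2 ^ 2) ^ d j * u j ^ 2 = ∑ j, u' j ^ 2 := by
      rw [← Finset.sum_subset (Finset.subset_univ S) fun j _ hj => by simp [hu', hj]]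
      refine Finset.sum_congr rfl fun j hj => ?_
      rw [hu', ← hr]; simp only [if_pos hj, mul_pow, ← pow_mul, mul_comm 2]
    rw [e1, e2]
    set σ := ∑ j, u' j ^ 2 with hσ
    rcases (show 0 ≤ σ by positivity).eq_or_lt with h0 | h0
    · rw [← h0, mul_zero]; exact hp v' u'
    have hs0 : Real.sqrt σ ≠ 0 := (Real.sqrt_pos.2 h0).ne'
    have hunit : (v', (Real.sqrt σ)⁻¹ • u') ∈ A := by
      refine hmem v' _ hv' ?_ fun j hj => by simp [hu', hj]
      simp only [Pi.smul_apply, smul_eq_mul, mul_pow, ← Finset.mul_sum, ← hσ, inv_pow,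
        Real.sq_sqrt h0.le]
      field_simp
    have := hmin hunit
    simp only [Set.mem_ofPred_eq] at this
    have e3 : qf G v' ((Real.sqrt σ)⁻¹ • u') = σ⁻¹ * qf G v' u' := by
      simp only [qf, Finset.mul_sum]
      refine Finset.sum_congr rfl fun i _ => Finset.sum_congr rfl fun j _ => ?_
      rw [show σ⁻¹ = (Real.sqrt σ)⁻¹ ^ 2 by rw [inv_pow, Real.sq_sqrt h0.le]]
      simp only [Pi.smul_apply, smul_eq_mul]
      ring
    rw [e3, ← div_eq_inv_mul, le_div_iff₀ h0] at this
    exact this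
  · have : ∑ j, w j ^ 2 = 1 := hw1
    simp [h] at this

section step

variable [DecidableEq ι]

omit [DecidableEq ι] in
/-- The matrix of a change of variables, as a congruence. -/
lemma qf_transform (G : ι → ι → ℝ × ℝ → ℝ) (T : ι → ι → ℝ × ℝ → ℝ) (v : ℝ × ℝ) (w : ι → ℝ) :
    qf (fun a b v => ∑ j, ∑ l, T a j v * G j l v * T b l v) v w =
      qf G v (fun j => ∑ a, T a j v * w a) := by
  simp only [qf, Finset.sum_mul, Finset.mul_sum]
  calc ∑ a, ∑ b, ∑ j, ∑ l, T a j v * G j l v * T b l v * w a * w b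
      = ∑ a, ∑ j, ∑ l, ∑ b, T a j v * G j l v * T b l v * w a * w b :=
        Finset.sum_congr rfl fun a _ => by
          rw [Finset.sum_comm]
          exact Finset.sum_congr rfl fun j _ => Finset.sum_comm
    _ = ∑ j, ∑ l, ∑ a, ∑ b, T a j v * G j l v * T b l v * w a * w b := by
        rw [Finset.sum_comm]
        exact Finset.sum_congr rfl fun j _ => Finset.sum_comm
    _ = _ := by
        refine Finset.sum_congr rfl fun j _ => Finset.sum_congr rfl fun l _ => ?_
        rw [Finset.sum_comm]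
        exact Finset.sum_congr rfl fun a _ => Finset.sum_congr rfl fun b _ => by ring

/-- The induction. -/
theorem sos_of_nonneg_aux : ∀ (m : ℕ) (d : ι → ℕ) (G : ι → ι → ℝ × ℝ → ℝ) (S : Finset ι),
    ∑ j ∈ S, (d j + 1) = m → (∀ i j, G i j ∈ BF (d i + d j)) → (∀ i j, G i j = G j i) →
    (∀ i j, i ∉ S → G i j = 0) → (∀ v w, 0 ≤ qf G v w) → IsSos d (qf G) := by
  intro m
  induction m using Nat.strong_induction_on with
  | _ m ih =>
    intro d G₀ S hm hG₀ hs₀ hS₀ hp₀
    rcases S.eq_empty_or_nonempty with hSe | hSne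
    · exact IsSos.zero.congr fun v w => by
        simp [qf, hSe ▸ fun i j => hS₀ i j, Finset.notMem_empty]
    obtain ⟨c, hc, hle, p, w₁, hp1, hw1S, hw1, hzero⟩ := exists_zero hG₀ hs₀ hS₀ hp₀ hSne
    set G : ι → ι → ℝ × ℝ → ℝ := fun i j => G₀ i j -
      (if i = j ∧ i ∈ S then c • (fun v : ℝ × ℝ => (v.1 ^ 2 + v.2 ^ 2) ^ d i) else 0 : ℝ × ℝ → ℝ) with hGdef
    have hsq : (fun v : ℝ × ℝ => v.1 ^ 2 + v.2 ^ 2) ∈ BF 2 := by
      refine mem_BF_succ.2 ⟨_, BF_fst, _, BF_snd, fun v => by ring⟩
    have hG : ∀ i j, G i j ∈ BF (d i + d j) := fun i j => by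
      refine Submodule.sub_mem _ (hG₀ i j) ?_
      split_ifs with h
      · rw [← h.1, ← two_mul, mul_comm]
        exact Submodule.smul_mem _ _ (BF_pow hsq _)
      · exact Submodule.zero_mem _
    have hs : ∀ i j, G i j = G j i := fun i j => by
      simp only [hGdef, hs₀ i j]
      by_cases h : i = j
      · subst h; rfl
      · simp [h, Ne.symm h]
    have hS : ∀ i j, i ∉ S → G i j = 0 := fun i j hi => by simp [hGdef, hS₀ i j hi, hi]
    have hq : ∀ v w, qf G v w = qf G₀ v w - c * ∑ j ∈ S, (v.1 ^ 2 + v.2 ^ 2) ^ d j * w j ^ 2 := by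
      intro v w
      simp only [qf, hGdef, Pi.sub_apply, sub_mul, Finset.sum_sub_distrib]
      congr 1
      rw [Finset.mul_sum, ← Finset.sum_subset (Finset.subset_univ S) fun i _ hi => by simp [hi]]
      refine Finset.sum_congr rfl fun i hi => ?_
      rw [Finset.sum_eq_single i (fun j _ hj => by simp [Ne.symm hj]) (by simp)]
      simp [hi]; ring
    have hpos : ∀ v w, 0 ≤ qf G v w := fun v w => by rw [hq]; linarith [hle v w]
    suffices hGs : IsSos d (qf G) from
      (hGs.add ((sos_diag d S).smul hc)).congr fun v w => by rw [hq]; ring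
    obtain ⟨j₀, hj₀⟩ : ∃ j, w₁ j ≠ 0 := Function.ne_iff.1 hw1
    have hfilt : (S.filter fun j => w₁ j ≠ 0).Nonempty :=
      ⟨j₀, Finset.mem_filter.2 ⟨not_not.1 fun h => hj₀ (hw1S _ h), hj₀⟩⟩
    obtain ⟨i, hi, himax⟩ := Finset.exists_max_image _ d hfilt
    rw [Finset.mem_filter] at hi
    set z : ι → ℝ := (w₁ i)⁻¹ • w₁ with hz
    have hzi : z i = 1 := by simp [hz, hi.2]
    have hzd : ∀ j, z j ≠ 0 → d j ≤ d i := fun j hj => by
      have hj' : w₁ j ≠ 0 := fun h => hj (by simp [hz, h])
      exact himax j (Finset.mem_filter.2 ⟨not_not.1 fun h => hj' (hw1S _ h), hj'⟩)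
    have hker : ∀ a, ∑ j, G a j p * z j = 0 := fun a => by
      have := qf_kernel hs (hpos p) (w := w₁) (by rw [hq, hzero, sub_self]) a
      simp only [hz, Pi.smul_apply, smul_eq_mul, mul_left_comm, ← Finset.mul_sum, this, mul_zero]
    set u : ι → ℝ × ℝ → ℝ := fun j => z j • fun v => along p v ^ (d i - d j) with hu
    set T : ι → ι → ℝ × ℝ → ℝ := fun a j =>
      if a = i then u j else if a = j then fun _ => 1 else 0 with hT
    have hui : ∀ v, u i v = 1 := fun v => by simp [hu, hzi]
    have hT_BF : ∀ a j, (d j ≤ d a ∧ T a j ∈ BF (d a - d j)) ∨ T a j = 0 := by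
      intro a j
      by_cases ha : a = i
      · by_cases hj : z j = 0
        · right; simp [hT, ha, hu, hj]
        · left
          refine ⟨ha ▸ hzd j hj, ?_⟩
          simp only [hT, ha, if_true, hu]
          have := BF_pow (BF_along p) (d i - d j)
          rw [mul_one] at this
          exact Submodule.smul_mem _ _ this
      · by_cases hj : a = j
        · left
          subst hj
          simp only [hT, if_neg ha, if_true, Nat.sub_self, le_refl, true_and]
          exact BF_const 1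
        · right; simp [hT, ha, hj]
    set G' : ι → ι → ℝ × ℝ → ℝ := fun a b v => ∑ j, ∑ l, T a j v * G j l v * T b l v with hG'
    have hG'BF : ∀ a b, G' a b ∈ BF (d a + d b) := fun a b => by
      refine BF_sum _ _ fun j _ => BF_sum _ _ fun l _ => ?_
      rcases hT_BF a j with ⟨h1, h2⟩ | h0
      · rcases hT_BF b l with ⟨h3, h4⟩ | h0
        · have := BF_mul (BF_mul h2 (hG j l)) h4
          rwa [show d a - d j + (d j + d l) + (d b - d l) = d a + d b by omega] at this
        · simp only [h0, Pi.zero_apply, mul_zero]; exact Submodule.zero_mem _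
      · simp only [h0, Pi.zero_apply, zero_mul]; exact Submodule.zero_mem _
    have hs' : ∀ a b, G' a b = G' b a := fun a b => funext fun v => by
      simp only [hG']
      rw [Finset.sum_comm]
      exact Finset.sum_congr rfl fun j _ => Finset.sum_congr rfl fun l _ => by rw [hs l j]; ring
    have hS' : ∀ a b, a ∉ S → G' a b = 0 := fun a b ha => funext fun v => by
      simp only [hG', Pi.zero_apply]
      refine Finset.sum_eq_zero fun j _ => Finset.sum_eq_zero fun l _ => ?_
      have hai : a ≠ i := fun h => ha (h ▸ hi.1)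
      by_cases hj : a = j
      · subst hj; simp [hS a l ha]
      · simp [hT, hai, hj]
    have hpos' : ∀ v w, 0 ≤ qf G' v w := fun v w => by rw [qf_transform]; exact hpos _ _
    have hrow : ∀ b, G' i b p = 0 := fun b => by
      simp only [hG']
      rw [Finset.sum_comm]
      refine Finset.sum_eq_zero fun l _ => ?_
      rw [← Finset.sum_mul]
      have : ∑ j, T i j p * G j l p = 0 := by
        rw [← hker l]
        refine Finset.sum_congr rfl fun j _ => ?_
        simp [hT, hu, along_self hp1, hs l j, mul_comm]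
      rw [this, zero_mul]
    -- back to the original variables
    suffices hG's : IsSos d (qf G') by
      obtain ⟨N, φ, hφ, e⟩ := hG's
      set w' : ℝ × ℝ → (ι → ℝ) → ι → ℝ := fun v w j => if j = i then w i else w j - u j v * w i
      refine ⟨N, fun k j => if j = i then (2 : ℝ) • φ k i - fun v => ∑ l, φ k l v * u l v else φ k j,
        fun k j => ?_, fun v w => ?_⟩
      · simp only
        split_ifs with hj
        · subst hj
          refine Submodule.sub_mem _ (Submodule.smul_mem _ _ (hφ k _)) (BF_sum _ _ fun l _ => ?_)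
          by_cases hl : z l = 0
          · simp only [hu, hl, zero_smul, Pi.zero_apply, mul_zero]; exact Submodule.zero_mem _
          · have h1 := Submodule.smul_mem _ (z l) (BF_pow (BF_along p) (d j - d l))
            rw [mul_one] at h1
            have := BF_mul (hφ k l) h1
            rwa [show d l + (d j - d l) = d j by have := hzd l hl; omega] at this
        · exact hφ k j
      · have hw : (fun j => ∑ a, T a j v * w' v w a) = w := funext fun j => by
          by_cases hj : j = i
          · subst hj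
            rw [Finset.sum_eq_single j (fun a _ ha => by simp [hT, ha]) (by simp)]
            simp [hT, w', hui]
          · rw [Finset.sum_eq_add (a := i) (b := j) (Ne.symm hj)
              (fun a _ ha => by simp [hT, ha.1, ha.2]) (by simp) (by simp)]
            simp [hT, w', hj]
        have hq' : qf G v w = qf G' v (w' v w) := by
          have h := qf_transform G T v (w' v w)
          rw [hw] at h
          exact h.symm
        rw [hq', e]
        refine Finset.sum_congr rfl fun k _ => congrArg (· ^ 2) ?_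
        rw [← Finset.add_sum_erase _ _ (Finset.mem_univ i),
          ← Finset.add_sum_erase _ _ (Finset.mem_univ i)]
        have h1 : ∑ x ∈ Finset.univ.erase i, φ k x v * w' v w x =
            ∑ x ∈ Finset.univ.erase i, φ k x v * w x -
              w i * ∑ x ∈ Finset.univ.erase i, φ k x v * u x v := by
          rw [Finset.mul_sum, ← Finset.sum_sub_distrib]
          exact Finset.sum_congr rfl fun x hx => by
            simp only [w', if_neg (Finset.ne_of_mem_erase hx)]; ring
        have h2 : ∑ x, φ k x v * u x v = φ k i v + ∑ x ∈ Finset.univ.erase i, φ k x v * u x v := by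
          rw [← Finset.add_sum_erase _ _ (Finset.mem_univ i), hui, mul_one]
        have h3 : ∑ x ∈ Finset.univ.erase i, (if x = i then (2 : ℝ) • φ k i -
            fun v => ∑ l, φ k l v * u l v else φ k x) v * w x =
            ∑ x ∈ Finset.univ.erase i, φ k x v * w x :=
          Finset.sum_congr rfl fun x hx => by rw [if_neg (Finset.ne_of_mem_erase hx)]
        rw [h1, h3]
        simp only [w', if_true, Pi.sub_apply, Pi.smul_apply, smul_eq_mul, h2]
        ring
    rcases Nat.eq_zero_or_pos (d i) with hd0 | hdpos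
    · have hzeroi : ∀ b, G' i b = 0 := fun b => funext fun v => by
        have hconst : ∀ v, qf G' v (Pi.single i 1) = G' i i v := fun v => by
          rw [qf, Finset.sum_eq_single i (fun a _ ha => by simp [ha]) (by simp),
            Finset.sum_eq_single i (fun a _ ha => by simp [ha]) (by simp)]
          simp
        have hii : G' i i v = 0 := by
          have h := hG'BF i i
          rw [hd0] at h
          obtain ⟨r, hr⟩ := mem_BF_zero.1 h
          rw [hr v, ← hr p, hrow]
        have := qf_kernel hs' (hpos' v) (w := Pi.single i 1) (by rw [hconst, hii]) b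
        rw [Finset.sum_eq_single i (fun a _ ha => by simp [ha]) (by simp), Pi.single_eq_same,
          mul_one, hs' b i] at this
        exact this
      refine ih (∑ j ∈ S.erase i, (d j + 1)) ?_ d G' (S.erase i) rfl hG'BF hs' (fun a b ha => ?_) hpos'
      · rw [← hm, ← Finset.add_sum_erase S _ hi.1]; omega
      · by_cases hai : a = i
        · rw [hai, hzeroi]
        · exact hS' a b fun h => ha (Finset.mem_erase.2 ⟨hai, h⟩)
    obtain ⟨D, hD⟩ : ∃ D, d i = D + 1 := ⟨d i - 1, by omega⟩
    have hdiv : ∀ b, ∃ g ∈ BF (D + d b), (b ∉ S → g = 0) ∧ ∀ v, G' i b v = perp p v * g v := by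
      intro b
      by_cases hb : b ∈ S
      · obtain ⟨g, hg, eg⟩ := BF_dvd hp1 (k := D + d b) (by
          have := hG'BF i b
          rwa [hD, Nat.add_right_comm] at this) (hrow b)
        exact ⟨g, hg, fun h => absurd hb h, eg⟩
      · exact ⟨0, Submodule.zero_mem _, fun _ => rfl, fun v => by
          rw [hs', hS' b i hb]; simp⟩
    choose g hg hgS eg using hdiv
    have hgi : g i ∈ BF (D + D + 1) := by
      have := hg i
      rwa [hD, ← Nat.add_assoc] at this
    obtain ⟨h, hh, eh⟩ := BF_dvd hp1 hgi (BF_double hp1 hgi (eg i) fun v => by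
      have := hpos' v (Pi.single i 1)
      rwa [qf, Finset.sum_eq_single i (fun a _ ha => by simp [ha]) (by simp),
        Finset.sum_eq_single i (fun a _ ha => by simp [ha]) (by simp), Pi.single_eq_same,
        mul_one, mul_one] at this)
    set d' := Function.update d i D with hd'
    set G'' : ι → ι → ℝ × ℝ → ℝ := fun a b =>
      if a = i then (if b = i then h else g b) else if b = i then g a else G' a b with hG''
    set κ : ι → ℝ × ℝ → ℝ := fun a => if a = i then perp p else fun _ => 1 with hκ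
    have hfac : ∀ a b v, G' a b v = κ a v * κ b v * G'' a b v := fun a b v => by
      by_cases ha : a = i <;> by_cases hb : b = i
      · subst ha; subst hb; simp [hκ, hG'', eg, eh]; ring
      · subst ha; simp [hκ, hG'', hb, eg]
      · subst hb; simp [hκ, hG'', ha, hs' a, eg]
      · simp [hκ, hG'', ha, hb]
    have hscale : ∀ v w, qf G' v w = qf G'' v (fun a => κ a v * w a) := fun v w => by
      refine Finset.sum_congr rfl fun a _ => Finset.sum_congr rfl fun b _ => ?_
      rw [hfac]; ring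
    have hG''BF : ∀ a b, G'' a b ∈ BF (d' a + d' b) := fun a b => by
      by_cases ha : a = i <;> by_cases hb : b = i
      · simpa [hG'', hd', ha, hb] using hh
      · simpa [hG'', hd', ha, hb] using hg b
      · simpa [hG'', hd', ha, hb, add_comm] using hg a
      · simpa [hG'', hd', ha, hb] using hG'BF a b
    have hs'' : ∀ a b, G'' a b = G'' b a := fun a b => by
      by_cases ha : a = i <;> by_cases hb : b = i <;> simp [hG'', ha, hb, hs' a b]
    have hS'' : ∀ a b, a ∉ S → G'' a b = 0 := fun a b ha => by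
      have hai : a ≠ i := fun h => ha (h ▸ hi.1)
      by_cases hb : b = i
      · simp [hG'', hai, hb, hgS a ha]
      · simp [hG'', hai, hb, hS' a b ha]
    have hmeas : ∑ j ∈ S, (d' j + 1) < m := by
      rw [← hm]
      refine Finset.sum_lt_sum (fun j _ => ?_) ⟨i, hi.1, by simp [hd', hD]⟩
      by_cases hj : j = i <;> simp [hd', hj, hD]
    have hpos'' : ∀ v w, 0 ≤ qf G'' v w := fun v w => by
      refine nonneg_of_off_line hp1 (F := fun v => qf G'' v w) ((qf_continuous hG''BF).comp
        (continuous_id.prodMk continuous_const)) (fun v hv => ?_) v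
      have hne : ∀ a, κ a v ≠ 0 := fun a => by by_cases ha : a = i <;> simp [hκ, ha, hv]
      have := hpos' v fun a => w a / κ a v
      rwa [hscale, show (fun a => κ a v * (w a / κ a v)) = w from
        funext fun a => mul_div_cancel₀ _ (hne a)] at this
    obtain ⟨N, φ, hφ, e⟩ := ih _ hmeas d' G'' S rfl hG''BF hs'' hS'' hpos''
    refine ⟨N, fun k a v => φ k a v * κ a v, fun k a => ?_, fun v w => ?_⟩
    · by_cases ha : a = i
      · subst ha
        have := BF_mul (hφ k a) (BF_perp p)
        simpa [hκ, hd', hD] using this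
      · have := hφ k a
        simpa [hκ, hd', ha] using this
    · rw [hscale, e]
      exact Finset.sum_congr rfl fun k _ => congrArg (· ^ 2)
        (Finset.sum_congr rfl fun a _ => by ring)

end step

/-- Positive semidefinite matrices of binary forms are sums of squares. -/
theorem sos_of_nonneg [DecidableEq ι] {d : ι → ℕ} (G : ι → ι → ℝ × ℝ → ℝ)
    (hG : ∀ i j, G i j ∈ BF (d i + d j)) (hs : ∀ i j, G i j = G j i)
    (hp : ∀ v w, 0 ≤ qf G v w) : IsSos d (qf G) :=
  sos_of_nonneg_aux _ d G Finset.univ rfl hG hs (fun i _ h => absurd (Finset.mem_univ i) h) hp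

end Vale.Agent.P256.CubicLow
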