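import Vale.Agent.P256.Shadow

/-!
A determinantal certificate for a cubic cone: `p = qL - ∑ aᵀ adj(W) a` with `q = det W` for a linear
pencil `W` of `2 × 2` matrices makes the cone a spectrahedron.
-/

namespace Vale.Agent.P256.CubicLow

open Filter Topology
open scoped BigOperators

variable {n : ℕ} (H : HCubic n) {κ : Type*} [Fintype κ]

/-- Membership in the cone from positivity on the shifted ray. -/
lemma mem_cone_of_shift {x : Vec n}
    (h : ∀ t : ℝ, 0 < t → 0 < H.M (x + t • H.e) (x + t • H.e) (x + t • H.e)) : x ∈ H.cone := by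
  obtain ⟨r₀, r₁, r₂, e1, e2, e3⟩ := H.roots x
  have hr : ∀ t : ℝ, (t - r₀) * (t - r₁) * (t - r₂) = 0 → t ≤ 0 := fun t ht => by
    by_contra hpos
    have := h t (not_le.1 hpos)
    rw [(H.shift x t).2.2] at this
    have e : H.M x x x + 3 * t * H.M H.e x x + 3 * t ^ 2 * H.M H.e H.e x + t ^ 3 =
        (t - r₀) * (t - r₁) * (t - r₂) := by linear_combination e3 + t * e2 + t ^ 2 * e1
    linarith
  have s0 := hr r₀ (by ring)
  have s1 := hr r₁ (by ring)
  have s2 := hr r₂ (by ring)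
  refine ⟨by linarith, ?_, ?_⟩
  · nlinarith [mul_nonneg (neg_nonneg.2 s0) (neg_nonneg.2 s1),
      mul_nonneg (neg_nonneg.2 s0) (neg_nonneg.2 s2), mul_nonneg (neg_nonneg.2 s1) (neg_nonneg.2 s2)]
  · nlinarith [mul_nonneg (mul_nonneg (neg_nonneg.2 s0) (neg_nonneg.2 s1)) (neg_nonneg.2 s2)]

/-- The quadratic form of the pencil. -/
def bigForm (u₁ u₂ u₃ L : Vec n →ₗ[ℝ] ℝ) (a b : κ → Vec n →ₗ[ℝ] ℝ) (ξ η : κ → ℝ) (t : ℝ) :
    Vec n →ₗ[ℝ] ℝ :=
  ∑ k, (ξ k ^ 2 • u₁ + (2 * ξ k * η k) • u₂ + η k ^ 2 • u₃ + (2 * t * ξ k) • a k +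
    (2 * t * η k) • b k) + t ^ 2 • L

lemma bigForm_apply (u₁ u₂ u₃ L : Vec n →ₗ[ℝ] ℝ) (a b : κ → Vec n →ₗ[ℝ] ℝ) (ξ η : κ → ℝ) (t : ℝ)
    (x : Vec n) : bigForm u₁ u₂ u₃ L a b ξ η t x =
      ∑ k, (ξ k ^ 2 * u₁ x + 2 * ξ k * η k * u₂ x + η k ^ 2 * u₃ x + 2 * t * ξ k * a k x +
        2 * t * η k * b k x) + t ^ 2 * L x := by
  simp [bigForm]

/-- The form of a positive definite pencil value. -/
lemma form_nonneg {A B C : ℝ} (hA : 0 < A) (hq : 0 < A * C - B ^ 2) (s r : ℝ) :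
    0 ≤ s ^ 2 * A + 2 * s * r * B + r ^ 2 * C := by
  have e : (s ^ 2 * A + 2 * s * r * B + r ^ 2 * C) =
      ((s * A + r * B) ^ 2 + r ^ 2 * (A * C - B ^ 2)) / A := by field_simp; ring
  rw [e]; positivity

theorem shadow_of_cert (u₁ u₂ u₃ L : Vec n →ₗ[ℝ] ℝ) (a b : κ → Vec n →ₗ[ℝ] ℝ)
    (hp : ∀ x, H.M x x x = (u₁ x * u₃ x - u₂ x ^ 2) * L x -
      ∑ k, (u₃ x * a k x ^ 2 - 2 * u₂ x * (a k x * b k x) + u₁ x * b k x ^ 2))
    (hcore : ∀ x ∈ H.core, 0 < u₁ x ∧ 0 < u₁ x * u₃ x - u₂ x ^ 2) :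
    IsSpectrahedralShadow H.cone := by
  classical
  let a' : Option κ → Vec n →ₗ[ℝ] ℝ := fun k => k.elim 0 a
  let b' : Option κ → Vec n →ₗ[ℝ] ℝ := fun k => k.elim 0 b
  have hp' : ∀ x, H.M x x x = (u₁ x * u₃ x - u₂ x ^ 2) * L x -
      ∑ k, (u₃ x * a' k x ^ 2 - 2 * u₂ x * (a' k x * b' k x) + u₁ x * b' k x ^ 2) := fun x => by
    rw [hp, Fintype.sum_option]; simp [a', b']
  set f := bigForm u₁ u₂ u₃ L a' b' with hf
  have square : ∀ x (ξ η : Option κ → ℝ) (t : ℝ), u₁ x * u₃ x - u₂ x ^ 2 ≠ 0 →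
      f ξ η t x = ∑ k, ((ξ k + t * (u₃ x * a' k x - u₂ x * b' k x) / (u₁ x * u₃ x - u₂ x ^ 2)) ^ 2 * u₁ x +
        2 * (ξ k + t * (u₃ x * a' k x - u₂ x * b' k x) / (u₁ x * u₃ x - u₂ x ^ 2)) *
          (η k + t * (u₁ x * b' k x - u₂ x * a' k x) / (u₁ x * u₃ x - u₂ x ^ 2)) * u₂ x +
        (η k + t * (u₁ x * b' k x - u₂ x * a' k x) / (u₁ x * u₃ x - u₂ x ^ 2)) ^ 2 * u₃ x) +
        t ^ 2 * (H.M x x x / (u₁ x * u₃ x - u₂ x ^ 2)) := by
    intro x ξ η t hq
    rw [hf, bigForm_apply, hp', sub_div, mul_div_cancel_left₀ _ hq, mul_sub, Finset.sum_div,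
      Finset.mul_sum, ← add_sub_assoc, add_sub_right_comm, ← Finset.sum_sub_distrib]
    congr 1
    refine Finset.sum_congr rfl fun k _ => ?_
    generalize hQ : u₁ x * u₃ x - u₂ x ^ 2 = Q at hq ⊢
    field_simp
    rw [← hQ]
    ring
  have hcorepos : ∀ x ∈ H.core, ∀ ξ η t, t ^ 2 * (H.M x x x / (u₁ x * u₃ x - u₂ x ^ 2)) ≤
      f ξ η t x := by
    intro x hx ξ η t
    obtain ⟨h1, h2⟩ := hcore x hx
    rw [square x ξ η t h2.ne']
    exact le_add_of_nonneg_left (Finset.sum_nonneg fun k _ => form_nonneg h1 h2 _ _)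
  have hmem : ∀ x, x ∈ H.cone ↔ ∀ ξ η t, 0 ≤ f ξ η t x := by
    intro x
    constructor
    · intro hx ξ η t
      by_contra hneg
      push Not at hneg
      set ε := -f ξ η t x / (2 * (|f ξ η t H.e| + 1)) with hε
      have hεpos : 0 < ε := div_pos (neg_pos.2 hneg) (by positivity)
      have hy := H.shift_core hx hεpos
      have h := le_trans (mul_nonneg (sq_nonneg t) (div_pos hy.2.2 (hcore _ hy).2).le)
        (hcorepos _ hy ξ η t)
      rw [map_add, map_smul, smul_eq_mul] at h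
      have h1 : ε * f ξ η t H.e ≤ ε * |f ξ η t H.e| :=
        mul_le_mul_of_nonneg_left (le_abs_self _) hεpos.le
      have h2 : ε * (2 * (|f ξ η t H.e| + 1)) = -f ξ η t x := by
        rw [hε]; field_simp
      nlinarith
    · intro h
      refine mem_cone_of_shift H fun s hs => ?_
      set y := x + s • H.e with hy
      obtain ⟨e1, e2⟩ := hcore _ H.e_mem_core
      have hW : ∀ α β : ℝ, (α ≠ 0 ∨ β ≠ 0) →
          0 < α ^ 2 * u₁ y + 2 * α * β * u₂ y + β ^ 2 * u₃ y := by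
        intro α β hne
        have hx := h (fun k => if k = none then α else 0) (fun k => if k = none then β else 0) 0
        simp [hf, bigForm_apply, a', b', Fintype.sum_option] at hx
        have he : 0 < α ^ 2 * u₁ H.e + 2 * α * β * u₂ H.e + β ^ 2 * u₃ H.e := by
          have e : α ^ 2 * u₁ H.e + 2 * α * β * u₂ H.e + β ^ 2 * u₃ H.e =
              ((α * u₁ H.e + β * u₂ H.e) ^ 2 + β ^ 2 * (u₁ H.e * u₃ H.e - u₂ H.e ^ 2)) /
                u₁ H.e := by field_simp; ring
          rw [e]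
          refine div_pos ?_ e1
          rcases eq_or_ne β 0 with hb | hb
          · subst hb
            have ha : α ≠ 0 := hne.resolve_right (fun h => h rfl)
            simp; positivity
          · positivity
        simp only [hy, map_add, map_smul, smul_eq_mul]
        nlinarith [mul_pos hs he]
      have h1 : 0 < u₁ y := by simpa using hW 1 0 (Or.inl one_ne_zero)
      have h2 : 0 < u₁ y * u₃ y - u₂ y ^ 2 := by
        have := hW (-u₂ y) (u₁ y) (Or.inr h1.ne')
        exact pos_of_mul_pos_right (a := u₁ y) (by linarith) h1.le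
      set Q := u₁ y * u₃ y - u₂ y ^ 2 with hQ
      set ξ : Option κ → ℝ := fun k => -(1 * (u₃ y * a' k y - u₂ y * b' k y) / Q) with hξ
      set η : Option κ → ℝ := fun k => -(1 * (u₁ y * b' k y - u₂ y * a' k y) / Q) with hη
      have hval := square y ξ η 1 h2.ne'
      simp [hξ, hη, ← hQ] at hval
      have hpos : 0 < f ξ η 1 y := by
        rw [hy, map_add, map_smul, smul_eq_mul]
        have k1 := h ξ η 1
        have k2 := hcorepos _ H.e_mem_core ξ η 1
        rw [H.norm, one_pow, one_mul] at k2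
        have k3 : 0 < f ξ η 1 H.e := lt_of_lt_of_le (div_pos one_pos e2) k2
        linarith [mul_pos hs k3]
      simp [hξ, hη] at hpos
      rw [hval] at hpos
      exact (div_pos_iff_of_pos_right h2).1 hpos
  let M : Vec n → Matrix ((Option κ × Bool) ⊕ Unit) ((Option κ × Bool) ⊕ Unit) ℝ := fun x =>
    Matrix.fromBlocks
      (Matrix.of fun p q => if p.1 = q.1 then
        (if p.2 then (if q.2 then u₃ x else u₂ x) else (if q.2 then u₂ x else u₁ x)) else 0)
      (Matrix.of fun p _ => if p.2 then b' p.1 x else a' p.1 x)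
      (Matrix.of fun _ p => if p.2 then b' p.1 x else a' p.1 x)
      (Matrix.of fun _ _ => L x)
  have hsym : ∀ x, (M x).IsSymm := fun x => by
    refine Matrix.IsSymm.fromBlocks (Matrix.IsSymm.ext ?_) rfl (Matrix.IsSymm.ext fun _ _ => rfl)
    rintro ⟨k, i⟩ ⟨l, j⟩
    by_cases hkl : k = l
    · subst hkl; cases i <;> cases j <;> simp
    · simp [hkl, Ne.symm hkl]
  let L₁ : Vec n →ₗ[ℝ] Matrix ((Option κ × Bool) ⊕ Unit) ((Option κ × Bool) ⊕ Unit) ℝ :=
    { toFun := M
      map_add' := fun x y => by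
        ext (⟨k, _ | _⟩ | i) (⟨l, _ | _⟩ | j) <;> simp [M] <;> split_ifs <;> simp
      map_smul' := fun c x => by
        ext (⟨k, _ | _⟩ | i) (⟨l, _ | _⟩ | j) <;> simp [M] }
  refine shadow_of_lmi (κ := Empty) L₁ 0 hsym (fun _ => Matrix.isSymm_zero) fun x => ?_
  simp only [LinearMap.zero_apply, add_zero, exists_const, hmem]
  have hform : ∀ v : (Option κ × Bool) ⊕ Unit → ℝ, dotProduct v ((M x).mulVec v) =
      f (fun k => v (Sum.inl (k, false))) (fun k => v (Sum.inl (k, true))) (v (Sum.inr ())) x := by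
    intro v
    rw [hf, bigForm_apply]
    simp only [M, dotProduct, Matrix.mulVec, Fintype.sum_sum_type, Fintype.sum_prod_type,
      Fintype.sum_bool, Finset.univ_unique, Finset.sum_singleton, Matrix.fromBlocks_apply₁₁,
      Matrix.fromBlocks_apply₁₂, Matrix.fromBlocks_apply₂₁, Matrix.fromBlocks_apply₂₂,
      Matrix.of_apply, if_true, Bool.false_eq_true, if_false, ite_mul, zero_mul, mul_ite, mul_zero,
      Finset.sum_add_distrib, Finset.sum_ite_eq, Finset.mem_univ, mul_add, Finset.mul_sum]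
    simp only [← Finset.sum_add_distrib, show (default : Unit) = () from rfl]
    rw [← add_assoc, ← Finset.sum_add_distrib]
    congr 1
    · exact Finset.sum_congr rfl fun k _ => by ring
    · ring
  constructor
  · intro h
    refine Matrix.PosSemidef.of_dotProduct_mulVec_nonneg ?_ fun v => ?_
    · rw [Matrix.IsHermitian, Matrix.conjTranspose_eq_transpose_of_trivial]
      exact hsym x
    · rw [star_trivial]
      show 0 ≤ dotProduct v ((M x).mulVec v)
      rw [hform]; exact h _ _ _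
  · intro h ξ η t
    have := h.dotProduct_mulVec_nonneg
      (Sum.elim (fun p => if p.2 then η p.1 else ξ p.1) fun _ => t)
    rw [star_trivial] at this
    change 0 ≤ dotProduct _ ((M x).mulVec _) at this
    rw [hform] at this
    simpa using this

end Vale.Agent.P256.CubicLow
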