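import Mathlib

/-!
A cubic form vanishing on the null cone of a quadric `u₁u₃ - u₂²` is a multiple of it.
-/

namespace Vale.Agent.P256.CubicLow

open Filter Topology

/-- Cubic polynomial functions of one variable. -/
def Poly3 (g : ℝ → ℝ) : Prop :=
  ∃ c₀ c₁ c₂ c₃ : ℝ, ∀ t, g t = c₀ + c₁ * t + c₂ * t ^ 2 + c₃ * t ^ 3

lemma Poly3.add {f g : ℝ → ℝ} (hf : Poly3 f) (hg : Poly3 g) : Poly3 fun t => f t + g t := by
  obtain ⟨a₀, a₁, a₂, a₃, ha⟩ := hf
  obtain ⟨b₀, b₁, b₂, b₃, hb⟩ := hg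
  exact ⟨a₀ + b₀, a₁ + b₁, a₂ + b₂, a₃ + b₃, fun t => by simp only [ha, hb]; ring⟩

lemma Poly3.prod3 (p₀ p₁ q₀ q₁ r₀ r₁ : ℝ) :
    Poly3 fun t => (p₀ + t * p₁) * (q₀ + t * q₁) * (r₀ + t * r₁) :=
  ⟨p₀ * q₀ * r₀, p₁ * q₀ * r₀ + p₀ * q₁ * r₀ + p₀ * q₀ * r₁,
    p₁ * q₁ * r₀ + p₁ * q₀ * r₁ + p₀ * q₁ * r₁, p₁ * q₁ * r₁, fun t => by ring⟩

lemma Poly3.eval_one {g : ℝ → ℝ} (hg : Poly3 g) (h : ∀ᶠ t in 𝓝 (0 : ℝ), g t = 0) : g 1 = 0 := by
  obtain ⟨c₀, c₁, c₂, c₃, hc⟩ := hg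
  obtain ⟨δ, hδ, hball⟩ := Metric.eventually_nhds_iff.1 h
  have hz : ∀ t : ℝ, |t| < δ → c₀ + c₁ * t + c₂ * t ^ 2 + c₃ * t ^ 3 = 0 := fun t ht => by
    rw [← hc]; exact hball (by simpa using ht)
  set r := δ / 4 with hr
  have hr0 : 0 < r := by positivity
  have h0 := hz 0 (by simpa using hδ)
  have h1 := hz r (by rw [abs_of_pos hr0]; linarith)
  have h2 := hz (-r) (by rw [abs_neg, abs_of_pos hr0]; linarith)
  have h3 := hz (2 * r) (by rw [abs_of_pos (by positivity)]; linarith)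
  have e0 : c₀ = 0 := by linarith
  have e2 : c₂ * r ^ 2 = 0 := by linarith
  have e3 : c₃ * r ^ 3 = 0 := by linarith
  have z2 : c₂ = 0 := (mul_eq_zero.1 e2).resolve_right (by positivity)
  have z3 : c₃ = 0 := (mul_eq_zero.1 e3).resolve_right (by positivity)
  subst e0 z2 z3
  have z1 : c₁ = 0 := (mul_eq_zero.1 (show c₁ * r = 0 by linarith)).resolve_right hr0.ne'
  rw [hc, z1]; simp

variable {V : Type*} [AddCommGroup V] [Module ℝ V]

lemma Poly3.diag (T : V →ₗ[ℝ] V →ₗ[ℝ] V →ₗ[ℝ] ℝ) (e d : V) :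
    Poly3 fun t => T (e + t • d) (e + t • d) (e + t • d) :=
  ⟨T e e e, T d e e + T e d e + T e e d, T d d e + T d e d + T e d d, T d d d, fun t => by
    simp only [map_add, map_smul, LinearMap.add_apply, LinearMap.smul_apply, smul_eq_mul]; ring⟩

theorem exists_divide (T : V →ₗ[ℝ] V →ₗ[ℝ] V →ₗ[ℝ] ℝ) (u₁ u₂ u₃ : V →ₗ[ℝ] ℝ) (E e : V)
    (hE : u₁ E = 0 ∧ u₂ E = 1 ∧ u₃ E = 0) (he : 0 < u₁ e ∧ u₂ e = 0 ∧ 0 < u₃ e)
    (hvan : ∀ x, 0 < u₁ x → 0 < u₃ x → u₂ x ^ 2 = u₁ x * u₃ x → T x x x = 0) :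
    ∃ L : V →ₗ[ℝ] ℝ, ∀ x, T x x x = (u₁ x * u₃ x - u₂ x ^ 2) * L x := by
  obtain ⟨hE1, hE2, hE3⟩ := hE
  set σ : V →ₗ[ℝ] V := LinearMap.id - u₂.smulRight E with hσ
  have hσ' : ∀ x, σ x = x - u₂ x • E := fun x => by simp [hσ]
  set N : V →ₗ[ℝ] ℝ := (T.flip E).flip E + (T E).flip E + T E E with hN
  have hN' : ∀ x, N x = T x E E + T E x E + T E E x := fun x => by simp [hN]
  refine ⟨-(N.comp σ + T E E E • u₂), fun x => ?_⟩
  set y := σ x with hy
  have hy1 : u₁ y = u₁ x := by simp [hy, hσ', hE1]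
  have hy3 : u₃ y = u₃ x := by simp [hy, hσ', hE3]
  have hy2 : u₂ y = 0 := by simp [hy, hσ', hE2]
  -- the two remainders
  set R₀ : V → ℝ := fun y => T y y y + u₁ y * u₃ y * N y with hR₀
  set R₁ : V → ℝ := fun y => T y y E + T y E y + T E y y + u₁ y * u₃ y * T E E E with hR₁
  have expand : ∀ (y : V) (b : ℝ), T (y + b • E) (y + b • E) (y + b • E) =
      T y y y + b * (T y y E + T y E y + T E y y) + b ^ 2 * N y + b ^ 3 * T E E E := fun y b => by
    simp only [map_add, map_smul, LinearMap.add_apply, LinearMap.smul_apply, smul_eq_mul, hN']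
    ring
  have hsmall : ∀ z, u₂ z = 0 → 0 < u₁ z → 0 < u₃ z → R₀ z = 0 ∧ R₁ z = 0 := by
    intro z h2 h1 h3
    set s := Real.sqrt (u₁ z * u₃ z) with hs
    have hs2 : s ^ 2 = u₁ z * u₃ z := Real.sq_sqrt (mul_nonneg h1.le h3.le)
    have hs0 : 0 < s := Real.sqrt_pos.2 (mul_pos h1 h3)
    have key : ∀ b : ℝ, b ^ 2 = s ^ 2 → R₀ z + b * R₁ z = 0 := fun b hb => by
      have := hvan (z + b • E) (by simpa [hE1] using h1) (by simpa [hE3] using h3)
        (by simp [hE1, hE2, hE3, h2, hb, hs2])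
      rw [expand] at this
      simp only [hR₀, hR₁]
      rw [← hs2, ← hb]
      linear_combination this
    have k1 := key s rfl
    have k2 := key (-s) (neg_sq s)
    have : R₁ z = 0 := (mul_eq_zero.1 (show s * R₁ z = 0 by linarith)).resolve_left hs0.ne'
    exact ⟨by simpa [this] using k1, this⟩
  set d := y - e with hd
  have hline : e + (1 : ℝ) • d = y := by simp [hd]
  have hev : ∀ᶠ t in 𝓝 (0 : ℝ), R₀ (e + t • d) = 0 ∧ R₁ (e + t • d) = 0 := by
    have p1 : ∀ᶠ t in 𝓝 (0 : ℝ), 0 < u₁ e + t * u₁ d :=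
      (by fun_prop : Continuous fun t : ℝ => u₁ e + t * u₁ d).continuousAt.eventually
        (lt_mem_nhds (by simpa using he.1))
    have p3 : ∀ᶠ t in 𝓝 (0 : ℝ), 0 < u₃ e + t * u₃ d :=
      (by fun_prop : Continuous fun t : ℝ => u₃ e + t * u₃ d).continuousAt.eventually
        (lt_mem_nhds (by simpa using he.2.2))
    filter_upwards [p1, p3] with t ht1 ht3
    exact hsmall _ (by simp [hd, hy2, he.2.1]) (by simpa using ht1) (by simpa using ht3)
  have h0 : R₀ y = 0 := by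
    have hp : Poly3 fun t => R₀ (e + t • d) := by
      have h2 := Poly3.prod3 (u₁ e) (u₁ d) (u₃ e) (u₃ d) (N e) (N d)
      have := (Poly3.diag T e d).add h2
      simpa [hR₀, mul_assoc] using this
    have := hp.eval_one (hev.mono fun t ht => ht.1)
    simp only [hline] at this
    exact this
  have h1 : R₁ y = 0 := by
    have hp : Poly3 fun t => R₁ (e + t • d) := by
      refine ⟨T e e E + T e E e + T E e e + u₁ e * u₃ e * T E E E,
        T d e E + T e d E + T d E e + T e E d + T E d e + T E e d +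
          (u₁ d * u₃ e + u₁ e * u₃ d) * T E E E,
        T d d E + T d E d + T E d d + u₁ d * u₃ d * T E E E, 0, fun t => ?_⟩
      simp only [hR₁, map_add, map_smul, LinearMap.add_apply, LinearMap.smul_apply, smul_eq_mul]
      ring
    have := hp.eval_one (hev.mono fun t ht => ht.2)
    simp only [hline] at this
    exact this
  have hx : y + u₂ x • E = x := by rw [hy, hσ']; abel
  calc T x x x = T (y + u₂ x • E) (y + u₂ x • E) (y + u₂ x • E) := by rw [hx]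
    _ = _ := by
      rw [expand]
      simp only [LinearMap.neg_apply, LinearMap.add_apply, LinearMap.comp_apply,
        LinearMap.smul_apply, smul_eq_mul, ← hy]
      simp only [hR₀, hy1, hy3] at h0
      simp only [hR₁, hy1, hy3] at h1
      linear_combination h0 + u₂ x * h1

end Vale.Agent.P256.CubicLow
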