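import Mathlib

/-!
Positive semidefinite bilinear forms with few orthonormal vectors are sums of few squares.
-/

namespace Vale.Agent.P256.CubicLow

variable {V : Type*} [AddCommGroup V] [Module ℝ V]

/-- Orthonormal families. -/
def Orth (R : V →ₗ[ℝ] V →ₗ[ℝ] ℝ) {k : ℕ} (u : Fin k → V) : Prop :=
  ∀ i j, R (u i) (u j) = if i = j then 1 else 0

lemma squares_of_no_orth : ∀ (r : ℕ) (R : V →ₗ[ℝ] V →ₗ[ℝ] ℝ), (∀ x y, R x y = R y x) →
    (∀ x, 0 ≤ R x x) → (∀ u : Fin (r + 1) → V, ¬ Orth R u) →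
    ∃ k, k ≤ r ∧ ∃ u : Fin k → V, Orth R u ∧ ∀ x, R x x = ∑ i, R (u i) x ^ 2 := by
  have zero : ∀ (R : V →ₗ[ℝ] V →ₗ[ℝ] ℝ), (∀ x, 0 ≤ R x x) →
      (∀ x, R x x = 0) ∨ ∃ x, R x x = 1 := fun R hp => by
    by_cases h : ∀ x, R x x = 0
    · exact Or.inl h
    · push Not at h
      obtain ⟨x, hx⟩ := h
      have hpos : 0 < R x x := lt_of_le_of_ne (hp x) (Ne.symm hx)
      refine Or.inr ⟨(Real.sqrt (R x x))⁻¹ • x, ?_⟩
      simp only [map_smul, LinearMap.smul_apply, smul_eq_mul, ← mul_assoc, ← sq, inv_pow,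
        Real.sq_sqrt hpos.le]
      exact inv_mul_cancel₀ hpos.ne'
  intro r
  induction r with
  | zero =>
    intro R _ hp hno
    rcases zero R hp with h | ⟨x, hx⟩
    · exact ⟨0, le_rfl, fun i => i.elim0, fun i => i.elim0, fun x => by simp [h x]⟩
    · exact absurd (fun i j => by obtain rfl : i = j := Fin.ext (by omega); simp [hx]) (hno fun _ => x)
  | succ r ih =>
    intro R hs hp hno
    rcases zero R hp with h | ⟨u₁, hu₁⟩
    · exact ⟨0, Nat.zero_le _, fun i => i.elim0, fun i => i.elim0, fun x => by simp [h x]⟩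
    set R' : V →ₗ[ℝ] V →ₗ[ℝ] ℝ := R - (R u₁).smulRight (R u₁) with hR'
    have happ : ∀ x y, R' x y = R x y - R u₁ x * R u₁ y := fun x y => by simp [hR']
    have hx : ∀ x y, R' x y = R (x - R u₁ x • u₁) y := fun x y => by simp [happ]
    have hxy : ∀ x y, R' x y = R (x - R u₁ x • u₁) (y - R u₁ y • u₁) := fun x y => by
      rw [happ]
      simp only [map_sub, map_smul, LinearMap.sub_apply, LinearMap.smul_apply, smul_eq_mul, hu₁,
        hs x u₁]
      ring
    have lift : ∀ {k : ℕ} (v : Fin k → V), Orth R' v →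
        Orth R (Fin.cons u₁ fun i => v i - R u₁ (v i) • u₁ : Fin (k + 1) → V) := by
      intro k v hv i j
      refine Fin.cases ?_ (fun a => ?_) i <;> refine Fin.cases ?_ (fun b => ?_) j
      · simp [hu₁]
      · simp [hu₁, (Fin.succ_ne_zero b).symm]
      · simp [hs (v a) u₁, hu₁, Fin.succ_ne_zero a]
      · simp only [Fin.cons_succ, ← hxy, hv a b, Fin.succ_inj]
    obtain ⟨k, hk, v, hv, hsum⟩ := ih R' (fun x y => by rw [happ, happ, hs x y]; ring)
      (fun x => by rw [hxy]; exact hp _) (fun v hv => hno _ (lift v hv))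
    refine ⟨k + 1, Nat.succ_le_succ hk, _, lift v hv, fun x => ?_⟩
    rw [Fin.sum_univ_succ, Fin.cons_zero]
    simp only [Fin.cons_succ]
    rw [show ∑ i, R (v i - R u₁ (v i) • u₁) x ^ 2 = R' x x by
      rw [hsum x]; exact Finset.sum_congr rfl fun i _ => by rw [hx], happ]
    ring

/-- Positive semidefinite bilinear forms are sums of squares of functionals. -/
lemma exists_squares {n : ℕ} (B : (Fin n → ℝ) →ₗ[ℝ] (Fin n → ℝ) →ₗ[ℝ] ℝ)
    (hs : ∀ x y, B x y = B y x) (hp : ∀ x, 0 ≤ B x x) :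
    ∃ (N : ℕ) (α : Fin N → (Fin n → ℝ) →ₗ[ℝ] ℝ), ∀ x, B x x = ∑ k, α k x ^ 2 := by
  obtain ⟨k, -, u, -, hu⟩ := squares_of_no_orth n B hs hp fun u hu => by
    have hli : LinearIndependent ℝ u := by
      rw [Fintype.linearIndependent_iff]
      intro g hg i
      have := congrArg (B (u i)) hg
      simpa [hu i] using this
    have := hli.fintype_card_le_finrank
    simp at this
  exact ⟨k, fun i => B (u i), hu⟩

end Vale.Agent.P256.CubicLow
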