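import Vale.Agent.P256.CubicLow.Cert
import Vale.Agent.P256.CubicLow.Squares

/-!
The tangent quadric at a singular point of a cubic cone outside the lineality space.
-/

namespace Vale.Agent.P256.CubicLow

open scoped BigOperators

variable {n : ℕ}

/-- A singular point outside the lineality space. -/
structure SingPt (H : HCubic n) where
  s : Vec n
  mem : s ∈ H.cone
  sing : H.M H.e s s = 0
  pos : 0 < H.M H.e H.e s

namespace SingPt

variable {H : HCubic n} (S : SingPt H)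

/-- The normalised tangent quadric. -/
noncomputable def Q : Vec n →ₗ[ℝ] Vec n →ₗ[ℝ] ℝ := (H.M H.e H.e S.s)⁻¹ • H.M S.s

/-- The time function. -/
noncomputable def τ : Vec n →ₗ[ℝ] ℝ := S.Q H.e

/-- The spatial part. -/
noncomputable def R : Vec n →ₗ[ℝ] Vec n →ₗ[ℝ] ℝ := S.τ.smulRight S.τ - S.Q

lemma Q_apply (x y : Vec n) : S.Q x y = H.M S.s x y / H.M H.e H.e S.s := by
  simp [Q, div_eq_inv_mul]

lemma M_eq (x y : Vec n) : H.M S.s x y = H.M H.e H.e S.s * S.Q x y := by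
  rw [S.Q_apply, mul_div_cancel₀ _ S.pos.ne']

lemma Q_comm (x y : Vec n) : S.Q x y = S.Q y x := by rw [S.Q_apply, S.Q_apply, H.swap₂₃]

lemma τ_e : S.τ H.e = 1 := by
  rw [τ, S.Q_apply, H.rot, div_self S.pos.ne']

lemma R_apply (x y : Vec n) : S.R x y = S.τ x * S.τ y - S.Q x y := by simp [R]

lemma R_comm (x y : Vec n) : S.R x y = S.R y x := by rw [R_apply, R_apply, S.Q_comm]; ring

lemma R_e (x : Vec n) : S.R H.e x = 0 := by rw [R_apply, τ_e, one_mul]; exact sub_self _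

lemma R_nonneg (x : Vec n) : 0 ≤ S.R x x := by
  have h := H.revCS S.mem x
  rw [S.M_eq, S.M_eq, S.M_eq] at h
  have e1 : S.Q H.e H.e = 1 := S.τ_e
  rw [e1] at h
  rw [R_apply, sub_nonneg]
  have e2 : S.τ x = S.Q H.e x := rfl
  rw [e2]
  nlinarith [mul_pos S.pos S.pos]

lemma Q_s (x : Vec n) : S.Q S.s x = 0 := by
  rw [S.Q_apply, H.swap₁₃, H.singular_zero S.mem S.sing, zero_div]

lemma Q_eq (x : Vec n) : S.Q x x = S.τ x ^ 2 - S.R x x := by rw [R_apply]; ring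

/-- Moving along the ray of the singular point. -/
lemma along_s (x : Vec n) (t : ℝ) :
    H.M H.e H.e (x + t • S.s) = H.M H.e H.e x + t * H.M H.e H.e S.s ∧
    H.M H.e (x + t • S.s) (x + t • S.s) = H.M H.e x x + 2 * t * H.M H.e H.e S.s * S.τ x ∧
    H.M (x + t • S.s) (x + t • S.s) (x + t • S.s) =
      H.M x x x + 3 * t * H.M H.e H.e S.s * S.Q x x := by
  refine ⟨by simp, ?_, ?_⟩
  · rw [H.sq_add, S.sing, mul_zero, add_zero, ← H.swap₂₃ H.e S.s x, H.swap₁₂ H.e S.s x, S.M_eq]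
    show _ = H.M H.e x x + 2 * t * H.M H.e H.e S.s * S.Q H.e x
    ring
  · rw [H.cube_add, S.M_eq, H.singular_zero S.mem S.sing x,
      H.singular_zero S.mem S.sing S.s]
    ring

lemma ray_mem {t : ℝ} (ht : 0 ≤ t) : H.e + t • S.s ∈ H.cone := by
  obtain ⟨h1, h2, h3⟩ := S.along_s H.e t
  refine ⟨?_, ?_, ?_⟩
  · rw [h1, H.norm]; have := mul_nonneg ht S.pos.le; linarith
  · rw [h2, H.norm, τ_e]; have := mul_nonneg ht S.pos.le; linarith
  · rw [h3, H.norm, show S.Q H.e H.e = 1 from S.τ_e]; have := mul_nonneg ht S.pos.le; linarith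

lemma τ_nonneg {x : Vec n} (hx : x ∈ H.cone) : 0 ≤ S.τ x := by
  have h : ∀ t : ℝ, 0 ≤ t → 0 ≤ H.M H.e H.e x + t * (2 * H.M H.e H.e S.s * S.τ x) := fun t ht => by
    have := H.psi_nonneg hx (S.ray_mem ht)
    rw [H.sq_add, H.singular_zero S.mem S.sing x, H.rot x H.e H.e,
      show H.M x H.e S.s = H.M S.s H.e x from H.swap₁₃ _ _ _, S.M_eq] at this
    change 0 ≤ _ + 2 * t * (H.M H.e H.e S.s * S.τ x) + _ at this
    linarith
  by_contra hneg
  have hc : 2 * H.M H.e H.e S.s * S.τ x < 0 := by nlinarith [S.pos, not_le.1 hneg]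
  have := h ((H.M H.e H.e x + 1) / -(2 * H.M H.e H.e S.s * S.τ x))
    (div_nonneg (by linarith [hx.1]) (by linarith))
  have e : (H.M H.e H.e x + 1) / -(2 * H.M H.e H.e S.s * S.τ x) *
      (2 * H.M H.e H.e S.s * S.τ x) = -(H.M H.e H.e x + 1) := by
    rw [div_neg, neg_mul, div_mul_cancel₀ _ hc.ne]
  linarith

lemma Q_nonneg {x : Vec n} (hx : x ∈ H.cone) : 0 ≤ S.Q x x := by
  rw [Q_apply]; exact div_nonneg (H.psi_nonneg S.mem hx) S.pos.le

lemma core_pos {x : Vec n} (hx : x ∈ H.core) : 0 < S.τ x ∧ 0 < S.Q x x := by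
  obtain ⟨ε, hε, -, hy⟩ := H.core_room hx H.e
  have h1 := S.τ_nonneg (H.core_subset hy)
  have h2 := S.Q_nonneg (H.core_subset hy)
  rw [Q_eq] at h2 ⊢
  have e : ∀ y, S.R (x - ε • H.e) y = S.R x y := fun y => by simp [S.R_e]
  rw [e, S.R_comm x, e] at h2
  rw [map_sub, map_smul, τ_e, smul_eq_mul, mul_one] at h1 h2
  refine ⟨by linarith, ?_⟩
  nlinarith [mul_pos hε hε, mul_nonneg hε.le h1]

/-- The cubic is nonpositive on the null cone of the tangent quadric. -/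
lemma null_nonpos {x : Vec n} (hτ : 0 < S.τ x) (hQ : S.Q x x = 0) : H.M x x x ≤ 0 := by
  by_contra hpos
  push Not at hpos
  set m := H.M H.e H.e S.s with hm
  have hm0 : 0 < m := S.pos
  set t := max ((|H.M H.e H.e x| + 1) / m) ((|H.M H.e x x| + 1) / (2 * m * S.τ x)) with ht
  have h1 : |H.M H.e H.e x| + 1 ≤ t * m := (div_le_iff₀ hm0).1 (le_max_left _ _)
  have h2 : |H.M H.e x x| + 1 ≤ t * (2 * m * S.τ x) :=
    (div_le_iff₀ (by positivity)).1 (le_max_right _ _)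
  obtain ⟨e1, e2, e3⟩ := S.along_s x t
  have hc : x + t • S.s ∈ H.core := by
    refine ⟨?_, ?_, ?_⟩
    · rw [e1, ← hm]; linarith [neg_abs_le (H.M H.e H.e x)]
    · rw [e2, ← hm]; linarith [neg_abs_le (H.M H.e x x)]
    · rw [e3, hQ]; linarith
  have h0 := (S.core_pos hc).2
  simp [S.Q_s, S.Q_comm x S.s, hQ] at h0

/-- The cubic vanishes on the kernel, where the second derivative is nonpositive. -/
lemma kernel_facts {z : Vec n} (hτ : S.τ z = 0) (hR : S.R z z = 0) :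
    H.M z z z = 0 ∧ H.M H.e z z ≤ 0 := by
  have hQ : S.Q z z = 0 := by rw [Q_eq, hτ, hR]; ring
  have key : ∀ a : ℝ, a * H.M z z z ≤ H.M H.e z z ^ 2 ∧ (a = 0 → H.M H.e z z ≤ 0) := by
    intro a
    set t := (a - H.M H.e H.e z) / H.M H.e H.e S.s with ht
    obtain ⟨e1, e2, e3⟩ := S.along_s z t
    have ha : H.M H.e H.e (z + t • S.s) = a := by
      rw [e1, ht, div_mul_cancel₀ _ S.pos.ne']; ring
    rw [hτ, mul_zero, add_zero] at e2
    rw [hQ, mul_zero, add_zero] at e3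
    obtain ⟨r₀, r₁, r₂, q1, q2, q3⟩ := H.roots (z + t • S.s)
    rw [ha] at q1
    rw [e2] at q2
    rw [e3] at q3
    refine ⟨?_, fun h0 => ?_⟩
    · have h1 : (3 * H.M H.e z z) ^ 2 - 3 * (3 * a) * H.M z z z =
          ((r₀ * r₁ - r₀ * r₂) ^ 2 + (r₀ * r₁ - r₁ * r₂) ^ 2 + (r₀ * r₂ - r₁ * r₂) ^ 2) / 2 := by
        rw [q2, q1, q3]; ring
      nlinarith [sq_nonneg (r₀ * r₁ - r₀ * r₂), sq_nonneg (r₀ * r₁ - r₁ * r₂),
        sq_nonneg (r₀ * r₂ - r₁ * r₂)]
    · have h := H.traceless (z + t • S.s) (by rw [ha, h0])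
      rwa [e2] at h
  refine ⟨?_, (key 0).2 rfl⟩
  by_contra hne
  have := (key ((H.M H.e z z ^ 2 + 1) / H.M z z z)).1
  rw [div_mul_cancel₀ _ hne] at this
  linarith

/-- Adapted vectors: an orthonormal system of the spatial part, without time component. -/
lemma exists_frame (hno : ∀ u : Fin 3 → Vec n, ¬ Orth S.R u) :
    ∃ k, k ≤ 2 ∧ ∃ f : Fin k → Vec n, Orth S.R f ∧ (∀ i, S.τ (f i) = 0) ∧
      ∀ x, S.R x x = ∑ i, S.R (f i) x ^ 2 := by
  obtain ⟨k, hk, u, hu, hsum⟩ := squares_of_no_orth 2 S.R S.R_comm S.R_nonneg hno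
  have e : ∀ i y, S.R (u i - S.τ (u i) • H.e) y = S.R (u i) y := fun i y => by simp [S.R_e]
  refine ⟨k, hk, fun i => u i - S.τ (u i) • H.e, fun i j => ?_, fun i => by simp [τ_e],
    fun x => by simp only [e, hsum]⟩
  rw [e, S.R_comm, e, S.R_comm, hu]

end SingPt

end Vale.Agent.P256.CubicLow
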