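import Vale.Agent.P256.CubicLow.RankThree
import Vale.Agent.P256.Poly

/-!
Cubic hyperbolicity cones in at most five variables are spectrahedral shadows.
-/

namespace Vale.Agent.P256.CubicLow

open scoped BigOperators

variable {n : ℕ}

/-- Three orthonormal directions are the only obstruction. -/
theorem shadow_of_singPt {H : HCubic n} (S : SingPt H)
    (hno : ∀ u : Fin 3 → Vec n, ¬ Orth S.R u) : IsSpectrahedralShadow H.cone := by
  obtain ⟨k, hk, f, hf, hτ, hR⟩ := S.exists_frame hno
  interval_cases k
  · exact shadow_rank_one S fun x => by simpa using hR x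
  · exact shadow_rank_two S (f 0) (by simpa using hf 0 0) (hτ 0) fun x => by simpa using hR x
  · exact shadow_rank_three S (f 0) (f 1) (by simpa using hf 0 0) (by simpa using hf 1 1)
      (by simpa using hf 0 1) (hτ 0) (hτ 1) fun x => by simpa [Fin.sum_univ_two] using hR x

/-- Cubic cones in at most five variables. -/
theorem shadow_five (H : HCubic n) (hn : n ≤ 5) : IsSpectrahedralShadow H.cone := by
  by_cases hN : H.NodalModLineality
  · exact H.shadow hN
  simp only [HCubic.NodalModLineality, not_forall, not_exists] at hN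
  obtain ⟨b, hb, hnb, hsing, v, hv, hvb⟩ := hN
  have hpos : 0 < H.M H.e H.e b := by
    refine lt_of_le_of_ne hb.1 fun h => hnb ?_
    exact H.lineality_mem_cone (H.lineality.neg_mem ⟨h.symm, hsing⟩)
  let S : SingPt H := ⟨b, hb, hsing, hpos⟩
  refine shadow_of_singPt S fun u hu => ?_
  have hQb : ∀ x, S.Q x b = 0 := fun x => (S.Q_comm x b).trans (S.Q_s x)
  have hQv : ∀ x, S.Q x v = 0 := fun x => by
    rw [S.Q_comm, S.Q_apply]
    show H.M b v x / _ = 0
    rw [hv, zero_div]
  have hτb : S.τ b = 0 := hQb H.e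
  have hτv : S.τ v = 0 := hQv H.e
  have hRe : ∀ i, S.R (u i) H.e = 0 := fun i => by rw [S.R_comm, S.R_e]
  have hRb : ∀ i, S.R (u i) b = 0 := fun i => by rw [S.R_apply, hτb, hQb]; ring
  have hRv : ∀ i, S.R (u i) v = 0 := fun i => by rw [S.R_apply, hτv, hQv]; ring
  have hli : LinearIndependent ℝ (![H.e, b, v, u 0, u 1, u 2] : Fin 6 → Vec n) := by
    rw [Fintype.linearIndependent_iff]
    intro g hg
    simp only [Fin.sum_univ_six, Matrix.cons_val_zero, Matrix.cons_val_one, Matrix.cons_val] at hg
    have g3 : g 3 = 0 := by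
      have := congrArg (S.R (u 0)) hg
      simpa [hRe, hRb, hRv, hu 0 0, hu 0 1, hu 0 2] using this
    have g4 : g 4 = 0 := by
      have := congrArg (S.R (u 1)) hg
      simpa [hRe, hRb, hRv, hu 1 0, hu 1 1, hu 1 2] using this
    have g5 : g 5 = 0 := by
      have := congrArg (S.R (u 2)) hg
      simpa [hRe, hRb, hRv, hu 2 0, hu 2 1, hu 2 2] using this
    have g0 : g 0 = 0 := by
      have := congrArg S.τ hg
      simpa [g3, g4, g5, hτb, hτv, S.τ_e] using this
    simp only [g0, g3, g4, g5, zero_smul, add_zero, zero_add] at hg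
    have g2 : g 2 = 0 := by
      by_contra hne
      refine hvb (-(g 1 / g 2)) ?_
      have e : v - -(g 1 / g 2) • b = (g 2)⁻¹ • (g 1 • b + g 2 • v) := by
        rw [smul_add, smul_smul, smul_smul, inv_mul_cancel₀ hne, one_smul, neg_smul, sub_neg_eq_add,
          div_eq_inv_mul]
        exact add_comm _ _
      rw [e, hg, smul_zero]
      exact H.lineality.zero_mem
    simp only [g2, zero_smul, add_zero, smul_eq_zero] at hg
    have g1 : g 1 = 0 := hg.resolve_right fun h => by simp [h] at hpos
    intro i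
    fin_cases i <;> assumption
  have := hli.fintype_card_le_finrank
  simp at this
  omega

/-- The Hessian of `p` at `b`. -/
noncomputable def hessian (p : MvPolynomial (Fin n) ℝ) (b : Vec n) : Matrix (Fin n) (Fin n) ℝ :=
  Matrix.of fun i j => MvPolynomial.eval b (MvPolynomial.pderiv i (MvPolynomial.pderiv j p))

/-- Cubic cones in at most five variables, or with a singular ray of low rank. -/
theorem cubic_low_shadow (p : MvPolynomial (Fin n) ℝ) (e : Fin n → ℝ) (hdeg : p.IsHomogeneous 3)
    (hhyp : IsHyperbolic p e)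
    (h : n ≤ 5 ∨ ∃ b ∈ hypCone p e, -b ∉ hypCone p e ∧
      (∀ i, MvPolynomial.eval b (MvPolynomial.pderiv i p) = 0) ∧ (hessian p b).rank ≤ 3) :
    IsSpectrahedralShadow (hypCone p e) := by
  classical
  obtain ⟨T, h₁₂, h₂₃, hT⟩ := exists_array hdeg
  have hp : p = triPoly T := MvPolynomial.funext fun x => by rw [hT, eval_triPoly]
  set c := triForm T e e e with hc
  have hcpos : 0 < c := by rw [hc, ← hT]; exact hhyp.1
  have s12 : ∀ u v w : Vec n, triForm T u v w = triForm T v u w := fun u v w => by
    rw [triForm_apply, triForm_apply, Finset.sum_comm]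
    exact Finset.sum_congr rfl fun i _ => Finset.sum_congr rfl fun j _ =>
      Finset.sum_congr rfl fun k _ => by rw [h₁₂]; ring
  have s23 : ∀ u v w : Vec n, triForm T u v w = triForm T u w v := fun u v w => by
    rw [triForm_apply, triForm_apply]
    refine Finset.sum_congr rfl fun i _ => ?_
    rw [Finset.sum_comm]
    exact Finset.sum_congr rfl fun j _ => Finset.sum_congr rfl fun k _ => by rw [h₂₃]; ring
  let H : HCubic n :=
    { e := e
      M := c⁻¹ • triForm T
      swap₁₂ := fun u v w => by simp [s12 u v w]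
      swap₂₃ := fun u v w => by simp [s23 u v w]
      norm := by simp [← hc, inv_mul_cancel₀ hcpos.ne']
      hyp := fun x z hz => hhyp.2 (-x) z (by
        have e0 : (fun i => z * (e i : ℂ) - (((-x) i : ℝ) : ℂ)) =
            fun i => z * (e i : ℂ) + (x i : ℂ) := by
          funext i; simp
        rw [e0, hp, aeval_triPoly T e x z h₁₂ h₂₃]
        have hcne : (c : ℂ) ≠ 0 := by exact_mod_cast hcpos.ne'
        simp only [LinearMap.smul_apply, smul_eq_mul, Complex.ofReal_mul, Complex.ofReal_inv] at hz
        field_simp at hz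
        rw [← hc]
        linear_combination hz) }
  have hM : ∀ u v w, triForm T u v w = c * H.M u v w := fun u v w => by
    show _ = c * (c⁻¹ • triForm T) u v w
    simp [mul_inv_cancel_left₀ hcpos.ne']
  have heval : ∀ x (t : ℝ), MvPolynomial.eval (t • e - x) p =
      c * (t ^ 3 - 3 * t ^ 2 * H.M H.e H.e x + 3 * t * H.M H.e x x - H.M x x x) := by
    intro x t
    rw [hT, hM, show t • e - x = -x + t • H.e by simp [sub_eq_neg_add]; rfl]
    rw [(H.shift (-x) t).2.2]
    simp only [map_neg, LinearMap.neg_apply]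
    ring
  have hcone : hypCone p e = H.cone := by
    ext x
    simp only [hypCone, Set.mem_ofPred_eq, heval, mul_eq_zero, hcpos.ne', false_or]
    obtain ⟨r₀, r₁, r₂, e1, e2, e3⟩ := H.roots x
    constructor
    · intro h
      have a0 := h (-r₀) (by rw [e3]; linear_combination (-r₀ ^ 2) * e1 - r₀ * e2)
      have a1 := h (-r₁) (by rw [e3]; linear_combination (-r₁ ^ 2) * e1 - r₁ * e2)
      have a2 := h (-r₂) (by rw [e3]; linear_combination (-r₂ ^ 2) * e1 - r₂ * e2)
      refine ⟨by linarith, by nlinarith, ?_⟩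
      rw [e3]
      nlinarith [mul_nonneg (mul_nonneg a0 a1) a2]
    · intro hx t ht
      by_contra hneg
      push Not at hneg
      nlinarith [mul_nonneg (sq_nonneg t) hx.1, mul_nonneg (neg_nonneg.2 hneg.le) hx.2.1, hx.2.2,
        pow_pos (neg_pos.2 hneg) 3]
  rw [hcone]
  rcases h with hn | ⟨b, hb, hnb, hgrad, hrank⟩
  · exact shadow_five H hn
  rw [hcone] at hb hnb
  have hz : ∀ w, H.M w b b = 0 := fun w => by
    rw [show H.M w b b = ((H.M.flip b).flip b) w from rfl, lin_eq_sum ((H.M.flip b).flip b) w]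
    refine Finset.sum_eq_zero fun i _ => ?_
    have := hgrad i
    rw [hp, eval_pderiv_triPoly T h₁₂ h₂₃, hM, mul_eq_zero, mul_eq_zero] at this
    simp [(this.resolve_left (by norm_num)).resolve_left hcpos.ne']
  have hpos : 0 < H.M H.e H.e b := by
    refine lt_of_le_of_ne hb.1 fun h0 => hnb ?_
    exact H.lineality_mem_cone (H.lineality.neg_mem ⟨h0.symm, hz _⟩)
  let S : SingPt H := ⟨b, hb, hz _, hpos⟩
  refine shadow_of_singPt S fun u hu => ?_
  have happ : ∀ v i, (hessian p b).mulVec v i = 6 * c * H.M b v (Pi.single i 1) := fun v i => by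
    simp only [hessian, Matrix.mulVec, dotProduct, Matrix.of_apply, hp,
      eval_pderiv_pderiv_triPoly T h₁₂ h₂₃, hM]
    rw [show H.M b v (Pi.single i 1) = ((H.M b).flip (Pi.single i 1)) v from rfl,
      lin_eq_sum ((H.M b).flip (Pi.single i 1)) v, Finset.mul_sum]
    refine Finset.sum_congr rfl fun j _ => ?_
    simp only [LinearMap.flip_apply]
    rw [H.rot b (Pi.single j 1) (Pi.single i 1)]
    ring
  set w : Fin 4 → Vec n := ![H.e, u 0, u 1, u 2] with hw
  let F : Fin 4 → LinearMap.range (hessian p b).mulVecLin := fun a =>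
    ⟨(hessian p b).mulVec (w a), ⟨w a, rfl⟩⟩
  have hli : LinearIndependent ℝ F := by
    rw [Fintype.linearIndependent_iff]
    intro g hg
    have h0 : (hessian p b).mulVec (∑ a, g a • w a) = 0 := by
      have := congrArg Subtype.val hg
      simpa [F, Matrix.mulVec_sum, Matrix.mulVec_smul] using this
    set z := ∑ a, g a • w a with hzdef
    have hQ : ∀ x, S.Q z x = 0 := fun x => by
      rw [S.Q_apply, show H.M S.s z x = H.M b z x from rfl, lin_eq_sum (H.M b z) x,
        Finset.sum_eq_zero fun i _ => ?_, zero_div]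
      have := congrFun h0 i
      rw [happ, Pi.zero_apply, mul_eq_zero] at this
      rw [this.resolve_left (by positivity), mul_zero]
    have hRe : ∀ i, S.R (u i) H.e = 0 := fun i => by rw [S.R_comm, S.R_e]
    have hτ : S.τ z = 0 := by
      show S.Q H.e z = 0
      rw [S.Q_comm, hQ]
    have hR : ∀ i, S.R (u i) z = 0 := fun i => by rw [S.R_apply, hτ, S.Q_comm, hQ]; ring
    simp only [hzdef, Fin.sum_univ_four, hw, Matrix.cons_val_zero, Matrix.cons_val_one,
      Matrix.cons_val] at hτ hR
    have g1 : g 1 = 0 := by simpa [hRe, hu 0 0, hu 0 1, hu 0 2] using hR 0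
    have g2 : g 2 = 0 := by simpa [hRe, hu 1 0, hu 1 1, hu 1 2] using hR 1
    have g3 : g 3 = 0 := by simpa [hRe, hu 2 0, hu 2 1, hu 2 2] using hR 2
    have g0 : g 0 = 0 := by simpa [g1, g2, g3, S.τ_e] using hτ
    intro a
    fin_cases a <;> assumption
  have := hli.fintype_card_le_finrank
  rw [Matrix.rank] at hrank
  simp at this
  omega

end Vale.Agent.P256.CubicLow
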