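import Vale.Agent.P256.CubicLow.Sides
import Vale.Agent.P256.CubicLow.BinarySOS
import Vale.Agent.P256.CubicLow.Divide

/-!
Tangent quadric of rank three: the cone is a spectrahedron.
-/

namespace Vale.Agent.P256.CubicLow

open scoped BigOperators

variable {n : ℕ} {H : HCubic n}

lemma BF_two {f : ℝ × ℝ → ℝ} (hf : f ∈ BF 2) :
    ∃ a b c : ℝ, ∀ v, f v = a * v.1 ^ 2 + b * (v.1 * v.2) + c * v.2 ^ 2 := by
  obtain ⟨g, hg, h, hh, e⟩ := mem_BF_succ.1 hf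
  obtain ⟨g₁, hg₁, g₂, hg₂, eg⟩ := mem_BF_succ.1 hg
  obtain ⟨h₁, hh₁, h₂, hh₂, eh⟩ := mem_BF_succ.1 hh
  obtain ⟨a, ha⟩ := mem_BF_zero.1 hg₁
  obtain ⟨b, hb⟩ := mem_BF_zero.1 hg₂
  obtain ⟨c, hc⟩ := mem_BF_zero.1 hh₁
  obtain ⟨d, hd⟩ := mem_BF_zero.1 hh₂
  exact ⟨a, b + c, d, fun v => by rw [e, eg, eh, ha, hb, hc, hd]; ring⟩

lemma BF_one {f : ℝ × ℝ → ℝ} (hf : f ∈ BF 1) : ∃ a b : ℝ, ∀ v, f v = a * v.1 + b * v.2 := by
  obtain ⟨g, hg, h, hh, e⟩ := mem_BF_succ.1 hf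
  obtain ⟨a, ha⟩ := mem_BF_zero.1 hg
  obtain ⟨b, hb⟩ := mem_BF_zero.1 hh
  exact ⟨a, b, fun v => by rw [e, ha, hb]; ring⟩

/-- The conic of null vectors. -/
def conic (E₁ E₂ E₃ : Vec n) (v : ℝ × ℝ) : Vec n :=
  v.1 ^ 2 • E₁ + (v.1 * v.2) • E₂ + v.2 ^ 2 • E₃

lemma BF_quad (a b c : ℝ) :
    (fun v : ℝ × ℝ => a * v.1 ^ 2 + b * (v.1 * v.2) + c * v.2 ^ 2) ∈ BF 2 :=
  mem_BF_succ.2 ⟨_, BF_lin a b, _, BF_lin 0 c, fun v => by ring⟩

lemma BF_conic_lin (E₁ E₂ E₃ : Vec n) (L : Vec n →ₗ[ℝ] ℝ) :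
    (fun v => L (conic E₁ E₂ E₃ v)) ∈ BF 2 := by
  rw [show (fun v => L (conic E₁ E₂ E₃ v)) =
    fun v : ℝ × ℝ => L E₁ * v.1 ^ 2 + L E₂ * (v.1 * v.2) + L E₃ * v.2 ^ 2 from
      funext fun v => by simp [conic]; ring]
  exact BF_quad _ _ _

lemma BF_conic_bilin (E₁ E₂ E₃ : Vec n) (B : Vec n →ₗ[ℝ] Vec n →ₗ[ℝ] ℝ) :
    (fun v => B (conic E₁ E₂ E₃ v) (conic E₁ E₂ E₃ v)) ∈ BF 4 := by
  have h : ∀ E, (fun v => B E (conic E₁ E₂ E₃ v)) ∈ BF 2 := fun E => BF_conic_lin _ _ _ (B E)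
  have h1 := BF_mul (BF_quad 1 0 0) (h E₁)
  have h2 := BF_mul (BF_quad 0 1 0) (h E₂)
  have h3 := BF_mul (BF_quad 0 0 1) (h E₃)
  rw [show (fun v => B (conic E₁ E₂ E₃ v) (conic E₁ E₂ E₃ v)) =
    (fun v => (1 * v.1 ^ 2 + 0 * (v.1 * v.2) + 0 * v.2 ^ 2) * B E₁ (conic E₁ E₂ E₃ v)) +
    (fun v => (0 * v.1 ^ 2 + 1 * (v.1 * v.2) + 0 * v.2 ^ 2) * B E₂ (conic E₁ E₂ E₃ v)) +
    (fun v => (0 * v.1 ^ 2 + 0 * (v.1 * v.2) + 1 * v.2 ^ 2) * B E₃ (conic E₁ E₂ E₃ v)) from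
      funext fun v => by
        show B (v.1 ^ 2 • E₁ + (v.1 * v.2) • E₂ + v.2 ^ 2 • E₃) (conic E₁ E₂ E₃ v) = _
        simp [LinearMap.add_apply]]
  exact (BF 4).add_mem ((BF 4).add_mem h1 h2) h3

lemma BF_conic_tri (E₁ E₂ E₃ : Vec n) (T : Vec n →ₗ[ℝ] Vec n →ₗ[ℝ] Vec n →ₗ[ℝ] ℝ) :
    (fun v => T (conic E₁ E₂ E₃ v) (conic E₁ E₂ E₃ v) (conic E₁ E₂ E₃ v)) ∈ BF 6 := by
  have h : ∀ E, (fun v => T E (conic E₁ E₂ E₃ v) (conic E₁ E₂ E₃ v)) ∈ BF 4 :=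
    fun E => BF_conic_bilin _ _ _ (T E)
  have h1 := BF_mul (BF_quad 1 0 0) (h E₁)
  have h2 := BF_mul (BF_quad 0 1 0) (h E₂)
  have h3 := BF_mul (BF_quad 0 0 1) (h E₃)
  rw [show (fun v => T (conic E₁ E₂ E₃ v) (conic E₁ E₂ E₃ v) (conic E₁ E₂ E₃ v)) =
    (fun v => (1 * v.1 ^ 2 + 0 * (v.1 * v.2) + 0 * v.2 ^ 2) *
      T E₁ (conic E₁ E₂ E₃ v) (conic E₁ E₂ E₃ v)) +
    (fun v => (0 * v.1 ^ 2 + 1 * (v.1 * v.2) + 0 * v.2 ^ 2) *
      T E₂ (conic E₁ E₂ E₃ v) (conic E₁ E₂ E₃ v)) +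
    (fun v => (0 * v.1 ^ 2 + 0 * (v.1 * v.2) + 1 * v.2 ^ 2) *
      T E₃ (conic E₁ E₂ E₃ v) (conic E₁ E₂ E₃ v)) from
      funext fun v => by
        show T (v.1 ^ 2 • E₁ + (v.1 * v.2) • E₂ + v.2 ^ 2 • E₃) (conic E₁ E₂ E₃ v)
          (conic E₁ E₂ E₃ v) = _
        simp [LinearMap.add_apply]]
  exact (BF 6).add_mem ((BF 6).add_mem h1 h2) h3

/-- The cubic on the null cone, as a quadratic form with binary coefficients. -/
noncomputable def nullMat (M : Vec n →ₗ[ℝ] Vec n →ₗ[ℝ] Vec n →ₗ[ℝ] ℝ) (E₁ E₂ E₃ : Vec n)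
    (π : Vec n →ₗ[ℝ] Vec n) : Option (Fin n) → Option (Fin n) → ℝ × ℝ → ℝ
  | none, none => fun v => -M (conic E₁ E₂ E₃ v) (conic E₁ E₂ E₃ v) (conic E₁ E₂ E₃ v)
  | none, some j => fun v =>
      -(3 / 2) * M (conic E₁ E₂ E₃ v) (conic E₁ E₂ E₃ v) (π (Pi.single j 1))
  | some i, none => fun v =>
      -(3 / 2) * M (conic E₁ E₂ E₃ v) (conic E₁ E₂ E₃ v) (π (Pi.single i 1))
  | some i, some j => fun v => -3 * M (conic E₁ E₂ E₃ v) (π (Pi.single i 1)) (π (Pi.single j 1))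

lemma qf_nullMat (M : Vec n →ₗ[ℝ] Vec n →ₗ[ℝ] Vec n →ₗ[ℝ] ℝ) (E₁ E₂ E₃ : Vec n)
    (π : Vec n →ₗ[ℝ] Vec n) (v : ℝ × ℝ) (w : Option (Fin n) → ℝ) :
    qf (nullMat M E₁ E₂ E₃ π) v w =
      -(M (conic E₁ E₂ E₃ v) (conic E₁ E₂ E₃ v) (conic E₁ E₂ E₃ v) * w none ^ 2 +
        3 * w none * M (conic E₁ E₂ E₃ v) (conic E₁ E₂ E₃ v) (π (w ∘ some)) +
        3 * M (conic E₁ E₂ E₃ v) (π (w ∘ some)) (π (w ∘ some))) := by
  set U := conic E₁ E₂ E₃ v with hU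
  have e1 : M U U (π (w ∘ some)) = ∑ j, w (some j) * M U U (π (Pi.single j 1)) :=
    lin_eq_sum ((M U U).comp π) (w ∘ some)
  have e2 : M U (π (w ∘ some)) (π (w ∘ some)) =
      ∑ i, ∑ j, M U (π (Pi.single i 1)) (π (Pi.single j 1)) * w (some i) * w (some j) :=
    bilin_eq_sum ((M U).compl₁₂ π π) (w ∘ some) (w ∘ some)
  rw [qf, Fintype.sum_option]
  simp only [Fintype.sum_option, nullMat, ← hU, e1, e2, Finset.sum_add_distrib, neg_mul,
    Finset.sum_neg_distrib, Finset.mul_sum]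
  have a1 : ∑ x, 3 / 2 * M U U (π (Pi.single x 1)) * w none * w (some x) =
      (3 / 2) * ∑ x, w none * (w (some x) * M U U (π (Pi.single x 1))) := by
    rw [Finset.mul_sum]; exact Finset.sum_congr rfl fun x _ => by ring
  have a2 : ∑ x, 3 / 2 * M U U (π (Pi.single x 1)) * w (some x) * w none =
      (3 / 2) * ∑ x, w none * (w (some x) * M U U (π (Pi.single x 1))) := by
    rw [Finset.mul_sum]; exact Finset.sum_congr rfl fun x _ => by ring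
  have a3 : ∑ x, 3 * w none * (w (some x) * M U U (π (Pi.single x 1))) =
      3 * ∑ x, w none * (w (some x) * M U U (π (Pi.single x 1))) := by
    rw [Finset.mul_sum]; exact Finset.sum_congr rfl fun x _ => by ring
  have a4 : ∑ i, ∑ j, 3 * (M U (π (Pi.single i 1)) (π (Pi.single j 1)) * w (some i) * w (some j)) =
      ∑ i, ∑ j, 3 * M U (π (Pi.single i 1)) (π (Pi.single j 1)) * w (some i) * w (some j) :=
    Finset.sum_congr rfl fun i _ => Finset.sum_congr rfl fun j _ => by ring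
  rw [a1, a2, a3, a4]
  ring

/-- Degrees of the coefficients. -/
def deg : Option (Fin n) → ℕ
  | none => 3
  | some _ => 1

lemma nullMat_BF (H : HCubic n) (E₁ E₂ E₃ : Vec n) (π : Vec n →ₗ[ℝ] Vec n) :
    ∀ i j, nullMat H.M E₁ E₂ E₃ π i j ∈ BF (deg i + deg j) := by
  have hsmul : ∀ {k : ℕ} (c : ℝ) {f : ℝ × ℝ → ℝ}, f ∈ BF k → (fun v => c * f v) ∈ BF k :=
    fun c f hf => Submodule.smul_mem _ c hf
  have h4 : ∀ z, (fun v => H.M (conic E₁ E₂ E₃ v) (conic E₁ E₂ E₃ v) z) ∈ BF 4 := fun z => by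
    rw [show (fun v => H.M (conic E₁ E₂ E₃ v) (conic E₁ E₂ E₃ v) z) =
      fun v => H.M z (conic E₁ E₂ E₃ v) (conic E₁ E₂ E₃ v) from
        funext fun v => (H.rot z _ _).symm]
    exact BF_conic_bilin _ _ _ (H.M z)
  rintro (_ | i) (_ | j)
  · exact (BF 6).neg_mem (BF_conic_tri _ _ _ H.M)
  · exact hsmul _ (h4 _)
  · exact hsmul _ (h4 _)
  · refine hsmul _ ?_
    rw [show (fun v => H.M (conic E₁ E₂ E₃ v) (π (Pi.single i 1)) (π (Pi.single j 1))) =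
      fun v => H.M (π (Pi.single i 1)) (π (Pi.single j 1)) (conic E₁ E₂ E₃ v) from
        funext fun v => H.rot _ _ _]
    exact BF_conic_lin _ _ _ _

/-- The trilinear form `(x, y, z) ↦ l x * m y * r z`. -/
def tri (l m r : Vec n →ₗ[ℝ] ℝ) : Vec n →ₗ[ℝ] Vec n →ₗ[ℝ] Vec n →ₗ[ℝ] ℝ :=
  l.smulRight (m.smulRight r)

lemma tri_apply (l m r : Vec n →ₗ[ℝ] ℝ) (x y z : Vec n) : tri l m r x y z = l x * m y * r z := by
  simp [tri, mul_assoc]

/-- Tangent quadric of rank three. -/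
theorem shadow_rank_three (S : SingPt H) (f g : Vec n) (hff : S.R f f = 1) (hgg : S.R g g = 1)
    (hfg : S.R f g = 0) (hτf : S.τ f = 0) (hτg : S.τ g = 0)
    (hR : ∀ x, S.R x x = S.R f x ^ 2 + S.R g x ^ 2) : IsSpectrahedralShadow H.cone := by
  classical
  set u₁ : Vec n →ₗ[ℝ] ℝ := S.τ + S.R f with hu₁
  obtain ⟨u₂, hu₂⟩ : ∃ u : Vec n →ₗ[ℝ] ℝ, u = S.R g := ⟨_, rfl⟩
  set u₃ : Vec n →ₗ[ℝ] ℝ := S.τ - S.R f with hu₃
  set E₁ : Vec n := (1 / 2 : ℝ) • (H.e + f) with hE₁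
  set E₃ : Vec n := (1 / 2 : ℝ) • (H.e - f) with hE₃
  have hfe : S.R f H.e = 0 := by rw [S.R_comm, S.R_e]
  have hge : S.R g H.e = 0 := by rw [S.R_comm, S.R_e]
  have hgf : S.R g f = 0 := by rw [S.R_comm, hfg]
  set π : Vec n →ₗ[ℝ] Vec n :=
    LinearMap.id - S.τ.smulRight H.e - (S.R f).smulRight f - (S.R g).smulRight g with hπdef
  have hπ : ∀ x, π x = x - S.τ x • H.e - S.R f x • f - S.R g x • g := fun x => by simp [hπdef]
  have hπτ : ∀ x, S.τ (π x) = 0 := fun x => by simp [hπ, S.τ_e, hτf, hτg]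
  have hπf : ∀ x, S.R f (π x) = 0 := fun x => by simp [hπ, hfe, hff, hfg]
  have hπg : ∀ x, S.R g (π x) = 0 := fun x => by simp [hπ, hge, hgg, hgf]
  have hππ : ∀ x, π (π x) = π x := fun x => by rw [hπ (π x), hπτ, hπf, hπg]; simp
  have hπR : ∀ x, S.R (π x) (π x) = 0 := fun x => by rw [hR, hπf, hπg]; ring
  have hdec : ∀ x, x = u₁ x • E₁ + u₂ x • g + u₃ x • E₃ + π x := fun x => by
    simp only [hu₁, hu₂, hu₃, hE₁, hE₃, hπ, LinearMap.add_apply, LinearMap.sub_apply]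
    module
  -- the cubic on the null cone
  set U := conic E₁ g E₃ with hU
  set G := nullMat H.M E₁ g E₃ π with hG
  have hnull : ∀ (v : ℝ × ℝ) (z : Vec n), v ≠ 0 → S.τ z = 0 → S.R f z = 0 → S.R g z = 0 →
      0 < S.τ (U v + z) ∧ S.Q (U v + z) (U v + z) = 0 := by
    intro v z hv h0 h1 h2
    have ht : S.τ (U v + z) = (v.1 ^ 2 + v.2 ^ 2) / 2 := by
      simp [hU, conic, hE₁, hE₃, S.τ_e, hτf, hτg, h0]; ring
    refine ⟨?_, ?_⟩
    · rw [ht]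
      rcases eq_or_ne v.1 0 with ha | ha
      · have hb : v.2 ≠ 0 := fun hb => hv (Prod.ext ha hb)
        positivity
      · positivity
    · rw [S.Q_eq, hR, ht]
      simp [hU, conic, hE₁, hE₃, hfe, hge, hff, hgg, hfg, hgf, h1, h2]
      ring
  have hGpos : ∀ v w, 0 ≤ qf G v w := by
    intro v w
    rcases eq_or_ne v 0 with rfl | hv
    · rw [hG, qf_nullMat]; simp [conic]
    have ex : ∀ u : Option (Fin n) → ℝ, qf G v u =
        -(H.M (U v) (U v) (U v) * u none ^ 2 + 3 * u none * H.M (U v) (U v) (π (u ∘ some)) +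
          3 * H.M (U v) (π (u ∘ some)) (π (u ∘ some))) := fun u => qf_nullMat _ _ _ _ _ v u
    have pos : ∀ u : Option (Fin n) → ℝ, 0 < u none → 0 ≤ qf G v u := by
      intro u hu
      set y := u none • U v + π (u ∘ some) with hy
      obtain ⟨e1, e2⟩ := hnull v ((u none)⁻¹ • π (u ∘ some)) hv (by simp [hπτ]) (by simp [hπf])
        (by simp [hπg])
      have hy' : y = u none • (U v + (u none)⁻¹ • π (u ∘ some)) := by
        rw [hy, smul_add, smul_inv_smul₀ hu.ne']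
      have h := S.null_nonpos (x := y) (by rw [hy', map_smul]; exact mul_pos hu e1)
        (by rw [hy']; simp only [map_smul, LinearMap.smul_apply, e2, smul_zero])
      have e : H.M y y y = -(u none * qf G v u) := by
        rw [ex, hy, add_comm (u none • U v), H.cube_add,
          (S.kernel_facts (hπτ _) (hπR _)).1, H.rot (π (u ∘ some)) (U v) (U v)]
        ring
      rw [e] at h
      exact nonneg_of_mul_nonneg_right (by linarith) hu
    have even : ∀ u, qf G v (-u) = qf G v u := fun u => by simp [qf]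
    have ne : ∀ u, u none ≠ 0 → 0 ≤ qf G v u := fun u hu => by
      rcases lt_or_gt_of_ne hu with h | h
      · rw [← even]; exact pos _ (by simpa using h)
      · exact pos _ h
    rcases eq_or_ne (w none) 0 with h0 | h0
    · refine nonneg_of_small (b := -(3 * H.M (U v) (U v) (π (w ∘ some))))
        (c := -H.M (U v) (U v) (U v)) fun ε hε => ?_
      have := ne (Function.update w none ε) (by simpa using hε.ne')
      have e : (Function.update w none ε) ∘ some = w ∘ some := funext fun j => by simp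
      rw [ex, e, Function.update_self] at this
      rw [ex, h0]
      linarith
    · exact ne w h0
  obtain ⟨N, φ, hφ, hsos⟩ := sos_of_nonneg G (nullMat_BF H E₁ g E₃ π)
    (fun i j => by
      rcases i with _ | i <;> rcases j with _ | j <;> try rfl
      funext v
      simp only [hG, nullMat]
      rw [H.swap₂₃]) hGpos
  have hcub : ∀ k, ∃ p₁ p₂ p₃ q₁ q₂ q₃ : ℝ, ∀ v : ℝ × ℝ, φ k none v =
      v.1 * (p₁ * v.1 ^ 2 + p₂ * (v.1 * v.2) + p₃ * v.2 ^ 2) +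
      v.2 * (q₁ * v.1 ^ 2 + q₂ * (v.1 * v.2) + q₃ * v.2 ^ 2) := fun k => by
    obtain ⟨p, hp, q, hq, e⟩ := mem_BF_succ.1 (show φ k none ∈ BF (2 + 1) from hφ k none)
    obtain ⟨p₁, p₂, p₃, ep⟩ := BF_two hp
    obtain ⟨q₁, q₂, q₃, eq⟩ := BF_two hq
    exact ⟨p₁, p₂, p₃, q₁, q₂, q₃, fun v => by rw [e, ep, eq]⟩
  choose p₁ p₂ p₃ q₁ q₂ q₃ hnone using hcub
  have hlin : ∀ k j, ∃ a b : ℝ, ∀ v : ℝ × ℝ, φ k (some j) v = a * v.1 + b * v.2 :=
    fun k j => BF_one (show φ k (some j) ∈ BF 1 from hφ k (some j))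
  choose α β hsome using hlin
  let A : Fin N → Vec n →ₗ[ℝ] ℝ := fun k =>
    q₁ k • u₁ + q₂ k • u₂ + q₃ k • u₃ + ∑ j, β k j • (LinearMap.proj j).comp π
  let B : Fin N → Vec n →ₗ[ℝ] ℝ := fun k =>
    -(p₁ k • u₁ + p₂ k • u₂ + p₃ k • u₃ + ∑ j, α k j • (LinearMap.proj j).comp π)
  set T : Vec n →ₗ[ℝ] Vec n →ₗ[ℝ] Vec n →ₗ[ℝ] ℝ := H.M + ∑ k, (tri u₃ (A k) (A k) +
    tri u₂ (A k) ((-2 : ℝ) • B k) + tri u₁ (B k) (B k)) with hT
  have hTx : ∀ x, T x x x = H.M x x x +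
      ∑ k, (u₃ x * A k x ^ 2 - 2 * u₂ x * (A k x * B k x) + u₁ x * B k x ^ 2) := fun x => by
    simp only [hT, LinearMap.add_apply, LinearMap.coe_sum, Finset.sum_apply,
      LinearMap.smul_apply, tri_apply, smul_eq_mul]
    exact congrArg _ (Finset.sum_congr rfl fun k _ => by ring)
  have hvan : ∀ x, 0 < u₁ x → 0 < u₃ x → u₂ x ^ 2 = u₁ x * u₃ x → T x x x = 0 := by
    intro x h1 h3 h2
    set v : ℝ × ℝ := (Real.sqrt (u₁ x), u₂ x / Real.sqrt (u₁ x)) with hv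
    have hs := Real.sq_sqrt h1.le
    have hs0 := (Real.sqrt_pos.2 h1).ne'
    have c1 : v.1 ^ 2 = u₁ x := hs
    have c2 : v.1 * v.2 = u₂ x := mul_div_cancel₀ _ hs0
    have c3 : v.2 ^ 2 = u₃ x := by
      simp only [hv, div_pow, hs, h2]; field_simp
    have hx : x = U v + π x := by
      conv_lhs => rw [hdec x]
      simp only [hU, conic, c1, c2, c3]
    set w : Option (Fin n) → ℝ := fun i => i.elim 1 (π x) with hw
    have hq : qf G v w = -(H.M x x x) := by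
      have hwz : π (w ∘ some) = π x := hππ x
      rw [hG, qf_nullMat, hwz, show w none = 1 from rfl]
      conv_rhs => rw [hx, add_comm (U v), ← one_smul ℝ (U v), H.cube_add,
        (S.kernel_facts (hπτ x) (hπR x)).1, H.rot (π x) (U v) (U v)]
      ring
    have hsq : ∀ k, (∑ i, φ k i v * w i) ^ 2 =
        u₃ x * A k x ^ 2 - 2 * u₂ x * (A k x * B k x) + u₁ x * B k x ^ 2 := fun k => by
      have e : ∑ i, φ k i v * w i = v.2 * A k x - v.1 * B k x := by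
        rw [Fintype.sum_option]
        simp only [A, B, hw, Option.elim, hnone, hsome, mul_one, LinearMap.add_apply,
          LinearMap.neg_apply, LinearMap.smul_apply, smul_eq_mul, LinearMap.coe_sum,
          Finset.sum_apply, LinearMap.comp_apply, LinearMap.proj_apply, ← c1, ← c2, ← c3,
          add_mul, Finset.sum_add_distrib, mul_add, mul_neg, Finset.mul_sum, sub_neg_eq_add]
        have s1 : ∑ j, α k j * v.1 * π x j = ∑ j, v.1 * (α k j * π x j) :=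
          Finset.sum_congr rfl fun j _ => by ring
        have s2 : ∑ j, β k j * v.2 * π x j = ∑ j, v.2 * (β k j * π x j) :=
          Finset.sum_congr rfl fun j _ => by ring
        rw [s1, s2]; ring
      rw [e, ← c1, ← c2, ← c3]; ring
    rw [hTx, ← Finset.sum_congr rfl fun k _ => hsq k, ← hsos, hq]
    ring
  obtain ⟨L, hL⟩ := exists_divide T u₁ u₂ u₃ g H.e
    ⟨by simp [hu₁, hτg, hfg], by simp [hu₂, hgg], by simp [hu₃, hτg, hfg]⟩
    ⟨by simp [hu₁, S.τ_e, hfe], by simp [hu₂, hge], by simp [hu₃, S.τ_e, hfe]⟩ hvan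
  refine shadow_of_cert H u₁ u₂ u₃ L A B (fun x => ?_) fun x hx => ?_
  · rw [← hL, hTx]; ring
  · obtain ⟨h1, h2⟩ := S.core_pos hx
    rw [S.Q_eq, hR] at h2
    have e : u₁ x * u₃ x - u₂ x ^ 2 = S.τ x ^ 2 - (S.R f x ^ 2 + S.R g x ^ 2) := by
      simp [hu₁, hu₂, hu₃]; ring
    refine ⟨?_, by rw [e]; exact h2⟩
    simp only [hu₁, LinearMap.add_apply]
    nlinarith [sq_nonneg (S.R g x)]

end Vale.Agent.P256.CubicLow
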