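import Vale.Agent.P256.CubicLow.Frame

/-!
Tangent quadric of rank one or two: the cone is a spectrahedron.
-/

namespace Vale.Agent.P256.CubicLow

open scoped BigOperators

variable {n : ℕ} {H : HCubic n}

lemma nonneg_of_small {a b c : ℝ} (h : ∀ ε : ℝ, 0 < ε → 0 ≤ a + ε * b + ε ^ 2 * c) : 0 ≤ a := by
  by_contra ha
  push Not at ha
  set ε := min 1 (-a / (2 * (|b| + |c| + 1))) with hε
  have he : 0 < ε := lt_min one_pos (div_pos (neg_pos.2 ha) (by positivity))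
  have he1 : ε ≤ 1 := min_le_left _ _
  have he2 : ε * (2 * (|b| + |c| + 1)) ≤ -a :=
    (le_div_iff₀ (by positivity)).1 (min_le_right _ _)
  nlinarith [h ε he, mul_le_mul_of_nonneg_left (le_abs_self b) he.le,
    mul_le_mul_of_nonneg_left (le_abs_self c) (sq_nonneg ε),
    mul_le_mul_of_nonneg_right (mul_le_mul_of_nonneg_left he1 he.le) (abs_nonneg c)]

/-- Restriction of the cubic to a half hyperplane of the null cone. -/
noncomputable def side (M : Vec n →ₗ[ℝ] Vec n →ₗ[ℝ] Vec n →ₗ[ℝ] ℝ) (E : Vec n)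
    (u : Vec n →ₗ[ℝ] ℝ) (π : Vec n →ₗ[ℝ] Vec n) : Vec n →ₗ[ℝ] Vec n →ₗ[ℝ] ℝ :=
  -(M E E E • u.smulRight u + (3 / 2 : ℝ) • (u.smulRight ((M E E).comp π) +
    ((M E E).comp π).smulRight u) + (3 : ℝ) • (M E).compl₁₂ π π)

lemma side_apply (M : Vec n →ₗ[ℝ] Vec n →ₗ[ℝ] Vec n →ₗ[ℝ] ℝ) (E : Vec n)
    (u : Vec n →ₗ[ℝ] ℝ) (π : Vec n →ₗ[ℝ] Vec n) (x y : Vec n) : side M E u π x y =
      -(M E E E * (u x * u y) + 3 / 2 * (u x * M E E (π y) + M E E (π x) * u y) +
        3 * M E (π x) (π y)) := by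
  simp [side]
  ring

lemma side_nonneg (S : SingPt H) (E : Vec n) (u : Vec n →ₗ[ℝ] ℝ) (π : Vec n →ₗ[ℝ] Vec n)
    (hu : 0 < u H.e) (hτ : 0 < S.τ E) (hQ : S.Q E E = 0)
    (hπτ : ∀ x, S.τ (π x) = 0) (hπR : ∀ x, S.R (π x) (π x) = 0) (hπE : ∀ x, S.R E (π x) = 0)
    (x : Vec n) : 0 ≤ side H.M E u π x x := by
  have pos : ∀ x, 0 < u x → 0 ≤ side H.M E u π x x := by
    intro x hx
    have hQx : S.Q (u x • E + π x) (u x • E + π x) = 0 := by
      have h1 : S.Q E (π x) = 0 := by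
        have := S.R_apply E (π x); rw [hπE, hπτ, mul_zero] at this; linarith
      have h2 : S.Q (π x) (π x) = 0 := by rw [S.Q_eq, hπR, hπτ]; ring
      simp [hQ, h1, h2, S.Q_comm (π x) E]
    have h := S.null_nonpos (x := u x • E + π x) (by simp [hπτ, mul_pos hx hτ]) hQx
    have hz := (S.kernel_facts (hπτ x) (hπR x)).1
    have e : H.M (u x • E + π x) (u x • E + π x) (u x • E + π x) = -(u x * side H.M E u π x x) := by
      rw [add_comm (u x • E), H.cube_add, hz, side_apply, ← H.rot (π x) E E]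
      rw [← H.swap₁₃ E E (π x)]
      ring
    rw [e] at h
    exact nonneg_of_mul_nonneg_right (by linarith) hx
  have ne : ∀ x, u x ≠ 0 → 0 ≤ side H.M E u π x x := fun x hx => by
    rcases lt_or_gt_of_ne hx with h | h
    · simpa using pos (-x) (by simpa using h)
    · exact pos x h
  rcases eq_or_ne (u x) 0 with h0 | h0
  · refine nonneg_of_small (b := side H.M E u π x H.e + side H.M E u π H.e x)
      (c := side H.M E u π H.e H.e) fun ε hε => ?_
    have := ne (x + ε • H.e) (by rw [map_add, map_smul, h0, zero_add, smul_eq_mul]; exact (mul_pos hε hu).ne')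
    simp only [map_add, map_smul, LinearMap.add_apply, LinearMap.smul_apply, smul_eq_mul] at this
    linarith
  · exact ne x h0

/-- The cubic form on a combination of two null vectors and a kernel vector. -/
lemma two_sides (E F z : Vec n) (a c : ℝ) :
    H.M (a • E + c • F + z) (a • E + c • F + z) (a • E + c • F + z) =
      H.M z z z + 3 * a * H.M E z z + 3 * a ^ 2 * H.M E E z + a ^ 3 * H.M E E E +
      3 * c * H.M F z z + 3 * c ^ 2 * H.M F F z + c ^ 3 * H.M F F F +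
      a * c * (3 * a * H.M E E F + 3 * c * H.M E F F + 6 * H.M E F z) := by
  rw [show a • E + c • F + z = (z + a • E) + c • F by abel, H.cube_add, H.cube_add, H.sq_add]
  simp only [map_add, map_smul, LinearMap.add_apply, LinearMap.smul_apply, smul_eq_mul]
  rw [H.rot z E E, H.rot z F F, H.swap₂₃ F z E, H.rot F E z |>.trans (H.swap₂₃ E z F),
    ← H.rot F E E]
  ring

/-- Tangent quadric of rank one. -/
theorem shadow_rank_one (S : SingPt H) (hR : ∀ x, S.R x x = 0) :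
    IsSpectrahedralShadow H.cone := by
  classical
  set π : Vec n →ₗ[ℝ] Vec n := LinearMap.id - S.τ.smulRight H.e with hπdef
  have hπ : ∀ x, π x = x - S.τ x • H.e := fun x => by simp [hπdef]
  have hπτ : ∀ x, S.τ (π x) = 0 := fun x => by simp [hπ, S.τ_e]
  set B : Vec n →ₗ[ℝ] Vec n →ₗ[ℝ] ℝ := -((3 : ℝ) • (H.M H.e).compl₁₂ π π) with hB
  have hBapp : ∀ x y, B x y = -(3 * H.M H.e (π x) (π y)) := fun x y => by simp [hB]
  obtain ⟨N, α, hα⟩ := exists_squares B (fun x y => by rw [hBapp, hBapp, H.swap₂₃])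
    (fun x => by rw [hBapp]; linarith [(S.kernel_facts (hπτ x) (hR _)).2])
  refine shadow_of_cert H S.τ 0 S.τ (S.τ + (3 : ℝ) • (H.M H.e H.e).comp π) α (fun _ => 0)
    (fun x => ?_) fun x hx => ?_
  · have hx : x = π x + S.τ x • H.e := by rw [hπ, sub_add_cancel]
    have hz := (S.kernel_facts (hπτ x) (hR _)).1
    have hs : ∑ k, S.τ x * α k x ^ 2 = S.τ x * B x x := by rw [hα, Finset.mul_sum]
    simp only [LinearMap.zero_apply, mul_zero, zero_mul, sub_zero, add_zero, zero_pow two_ne_zero]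
    rw [hs, hBapp]
    conv_lhs => rw [hx, H.cube_add, hz, H.rot (π x) H.e H.e, H.norm]
    simp
    ring
  · obtain ⟨h1, -⟩ := S.core_pos hx
    refine ⟨h1, ?_⟩
    simp; positivity

/-- Tangent quadric of rank two. -/
theorem shadow_rank_two (S : SingPt H) (f : Vec n) (hff : S.R f f = 1) (hτf : S.τ f = 0)
    (hR : ∀ x, S.R x x = S.R f x ^ 2) : IsSpectrahedralShadow H.cone := by
  classical
  set u₁ : Vec n →ₗ[ℝ] ℝ := S.τ + S.R f with hu₁
  set u₃ : Vec n →ₗ[ℝ] ℝ := S.τ - S.R f with hu₃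
  set E : Vec n := (1 / 2 : ℝ) • (H.e + f) with hE
  set F : Vec n := (1 / 2 : ℝ) • (H.e - f) with hF
  have hfe : S.R f H.e = 0 := by rw [S.R_comm, S.R_e]
  set π : Vec n →ₗ[ℝ] Vec n := LinearMap.id - S.τ.smulRight H.e - (S.R f).smulRight f with hπdef
  have hπ : ∀ x, π x = x - S.τ x • H.e - S.R f x • f := fun x => by simp [hπdef]
  have hπτ : ∀ x, S.τ (π x) = 0 := fun x => by simp [hπ, S.τ_e, hτf]
  have hπf : ∀ x, S.R f (π x) = 0 := fun x => by simp [hπ, hfe, hff]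
  have hπR : ∀ x, S.R (π x) (π x) = 0 := fun x => by rw [hR, hπf]; ring
  have hRE : ∀ s : ℝ, ∀ x, S.R ((1 / 2 : ℝ) • (H.e + s • f)) (π x) = 0 := fun s x => by
    simp [S.R_e, hπf]
  have hnull : ∀ s : ℝ, s ^ 2 = 1 →
      0 < S.τ ((1 / 2 : ℝ) • (H.e + s • f)) ∧
      S.Q ((1 / 2 : ℝ) • (H.e + s • f)) ((1 / 2 : ℝ) • (H.e + s • f)) = 0 := by
    intro s hs
    refine ⟨by simp [S.τ_e, hτf], ?_⟩
    rw [S.Q_eq, hR]
    simp [S.τ_e, hτf, hfe, hff, mul_pow, hs]
  obtain ⟨hEτ, hEQ⟩ := hnull 1 (by norm_num)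
  obtain ⟨hFτ, hFQ⟩ := hnull (-1) (by norm_num)
  have hEπ := hRE 1
  have hFπ := hRE (-1)
  rw [one_smul] at hEτ hEQ
  simp only [one_smul] at hEπ
  simp only [neg_smul, one_smul, ← sub_eq_add_neg] at hFτ hFQ hFπ
  rw [← hE] at hEτ hEQ hEπ
  rw [← hF] at hFτ hFQ hFπ
  have sym : ∀ (G : Vec n) (u : Vec n →ₗ[ℝ] ℝ) x y, side H.M G u π x y = side H.M G u π y x := by
    intro G u x y; rw [side_apply, side_apply, H.swap₂₃ G (π x) (π y)]; ring
  obtain ⟨N, α, hα⟩ := exists_squares (side H.M E u₁ π) (sym E u₁)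
    (side_nonneg S E u₁ π (by simp [hu₁, S.τ_e, hfe]) hEτ hEQ hπτ hπR hEπ)
  obtain ⟨N', β, hβ⟩ := exists_squares (side H.M F u₃ π) (sym F u₃)
    (side_nonneg S F u₃ π (by simp [hu₃, S.τ_e, hfe]) hFτ hFQ hπτ hπR hFπ)
  refine shadow_of_cert H u₁ 0 u₃
    ((3 * H.M E E F) • u₁ + (3 * H.M E F F) • u₃ + (6 : ℝ) • (H.M E F).comp π)
    (Sum.elim (fun _ => 0) β) (Sum.elim α fun _ => 0) (fun x => ?_) fun x hx => ?_
  · have hx : x = u₁ x • E + u₃ x • F + π x := by
      simp only [hu₁, hu₃, hE, hF, hπ, LinearMap.add_apply, LinearMap.sub_apply]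
      module
    have hz := (S.kernel_facts (hπτ x) (hπR x)).1
    have hs : ∑ k, u₁ x * α k x ^ 2 = u₁ x * side H.M E u₁ π x x := by rw [hα, Finset.mul_sum]
    have hs' : ∑ k, u₃ x * β k x ^ 2 = u₃ x * side H.M F u₃ π x x := by rw [hβ, Finset.mul_sum]
    simp only [Fintype.sum_sum_type, Sum.elim_inl, Sum.elim_inr, LinearMap.zero_apply, mul_zero,
      zero_mul, sub_zero, add_zero, zero_add, zero_pow two_ne_zero]
    rw [hs, hs', side_apply, side_apply]
    conv_lhs => rw [hx, two_sides, hz]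
    simp
    ring
  · obtain ⟨h1, h2⟩ := S.core_pos hx
    rw [S.Q_eq, hR] at h2
    have e : u₁ x * u₃ x = S.τ x ^ 2 - S.R f x ^ 2 := by simp [hu₁, hu₃]; ring
    refine ⟨?_, by simpa [e] using h2⟩
    simp only [hu₁, LinearMap.add_apply]
    nlinarith

end Vale.Agent.P256.CubicLow
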